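import Claimed.Agent.R257.Infra.Lay.Defs
import Claimed.Agent.R257.Infra.Alg

/-!
# R257 / Infra / Lay / Ext : LEAF L-IFL-EXT: the extension of an exact input with native amplitude `a`.      (architect helper245)   ~150 l.

PLAN.  `ext g z = ∫ car ξ z * g ξ dξ`.   Substitute `ξ = w + L⁻¹ • (k + θ)`: `∫ F ξ dξ = L^{-n} ∫ F (w + L⁻¹ • (k + θ)) dθ`, UNCONDITIONALLY (`integral_add_left_eq_self`, `Measure.integral_comp_smul`/`integral_comp_inv_smul`,
 `finrank_euclideanSpace_fin`): no integrability hypothesis on `a`.    Pointwise: `L • (ξ - w) - k = θ`, `⟪y, ξ - w⟫ = ⟪y, k+θ⟫/L`, and `inf_car_chart w y (k+θ) hL z` (`Infra/Alg.lean`, helper53; cite it even while it is sorried):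
 `car (w + L⁻¹ • η) z * e(-⟪y,η⟫/L) = car w z * e(⟪ζ,η⟫ - σ‖η‖²)`.   Constants: `L^{n/2} L^{-n} = L^{-n/2}` (`Real.rpow_natCast`, `Real.rpow_add`).
-/

set_option autoImplicit false

namespace Claimed.Agent.R257

open MeasureTheory Metric Set
open scoped ENNReal ContDiff InnerProductSpace Real

variable {n : ℕ}

/-- the substitution `ξ = w + L⁻¹ • (k + θ)`, no hypothesis on `F` -/
theorem ifl_ext_subst {L : ℝ} (hL : 0 < L) (w k : E n) (F : E n → ℂ) :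
    ∫ ξ, F ξ = ((L ^ n)⁻¹ : ℝ) • ∫ θ, F (w + L⁻¹ • (k + θ)) := by
  rw [integral_add_left_eq_self (fun x => F (w + L⁻¹ • x)) k,
    Measure.integral_comp_smul volume (fun x => F (w + x)) L⁻¹, finrank_euclideanSpace_fin,
    integral_add_left_eq_self F w, inv_pow, inv_inv, abs_of_pos (by positivity), smul_smul,
    inv_mul_cancel₀ (by positivity), one_smul]

theorem ifl_ext_E_neg (s : ℝ) : iflE (-s) = Complex.exp (-Complex.I * (s : ℂ)) := by
  unfold iflE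
  congr 1
  push_cast
  ring

/-- **L-IFL-EXT** -/
theorem ifl_ext {L : ℝ} (hL : 0 < L) (w y k : E n) (a : E n → ℂ) (z : ST n) :
    ext (iflG L w y k a) z = ((L ^ (-(n : ℝ) / 2) : ℝ) : ℂ) * car w z * iflH a k (chart L w y 0 z) := by
  unfold ext
  rw [ifl_ext_subst hL w k]
  have h1 : ∀ θ : E n, car (w + L⁻¹ • (k + θ)) z * iflG L w y k a (w + L⁻¹ • (k + θ))
      = (((((2 * π) ^ n)⁻¹ * L ^ ((n : ℝ) / 2) : ℝ) : ℂ) * car w z)
        * (a θ * iflE (⟪(chart L w y 0 z).1, k + θ⟫_ℝ - (chart L w y 0 z).2 * ‖k + θ‖ ^ 2)) := by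
    intro θ
    have e1 : L • (w + L⁻¹ • (k + θ) - w) - k = θ := by
      rw [add_sub_cancel_left, smul_smul, mul_inv_cancel₀ hL.ne', one_smul, add_sub_cancel_left]
    have e2 : ⟪y, w + L⁻¹ • (k + θ) - w⟫_ℝ = ⟪y, k + θ⟫_ℝ / L := by
      rw [add_sub_cancel_left, inner_smul_right, div_eq_inv_mul]
    have e3 := inf_car_chart w y (k + θ) hL.ne' z
    unfold iflG
    rw [e1, e2, ifl_ext_E_neg]
    unfold iflE
    calc car (w + L⁻¹ • (k + θ)) z * (((((2 * π) ^ n)⁻¹ * L ^ ((n : ℝ) / 2) : ℝ) : ℂ) * a θ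
          * Complex.exp (-Complex.I * ((⟪y, k + θ⟫_ℝ / L : ℝ) : ℂ)))
        = ((((2 * π) ^ n)⁻¹ * L ^ ((n : ℝ) / 2) : ℝ) : ℂ) * a θ
          * (car (w + L⁻¹ • (k + θ)) z * Complex.exp (-Complex.I * ((⟪y, k + θ⟫_ℝ / L : ℝ) : ℂ))) := by ring
      _ = _ := by rw [← e3]; ring
  simp only [h1]
  rw [integral_const_mul, iflH, Complex.real_smul]
  have h2 : (((L ^ n)⁻¹ : ℝ) : ℂ) * ((((2 * π) ^ n)⁻¹ * L ^ ((n : ℝ) / 2) : ℝ) : ℂ)
      = ((L ^ (-(n : ℝ) / 2) : ℝ) : ℂ) * ((((2 * π) ^ n)⁻¹ : ℝ) : ℂ) := by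
    rw [← Complex.ofReal_mul, ← Complex.ofReal_mul]
    congr 1
    have e : (L ^ n)⁻¹ * L ^ ((n : ℝ) / 2) = L ^ (-(n : ℝ) / 2) := by
      rw [← Real.rpow_natCast, ← Real.rpow_neg hL.le, ← Real.rpow_add hL]
      congr 1
      ring
    rw [← e]
    ring
  generalize (∫ θ : E n, a θ * iflE (⟪(chart L w y 0 z).1, k + θ⟫_ℝ - (chart L w y 0 z).2 * ‖k + θ‖ ^ 2)) = J
  linear_combination (car w z * J) * h2

/-- **L-IFL-EXT**: scalar multiples (`integral_const_mul`) -/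
theorem ifl_ext_smul (c : ℂ) (g : E n → ℂ) (z : ST n) : ext (fun ξ => c * g ξ) z = c * ext g z := by
  unfold ext
  rw [← integral_const_mul]
  refine integral_congr_ae (Filter.Eventually.of_forall fun ξ => ?_)
  simp only
  ring

end Claimed.Agent.R257
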