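import Claimed.Agent.R257.Infra.Lay.Decay

/-!
# R257 / Infra / Lay / Gram : LEAF L-IFL-GRAM: inner products of two exact inputs with the same native shift.      (architect helper245)   ~250 l.

PLAN.  Substitute `ξ = w + L⁻¹ • (k + θ)` (as in `ifl_ext`), `v = L • (w - w')`:
 `∫ G conj G' = (2π)^{-2n} e(const) ∫ a(θ) conj(a'(θ + v)) e(-⟪θ, (y - y')/L⟫) dθ = (2π)^{-2n} e(const) iflFt f ((y-y')/L)`,  `f θ = a θ * conj (a' (θ + v))`
 [`L(ξ - w') - k = θ + v`;  `-⟪y, ξ-w⟫ + ⟪y', ξ-w'⟫ = -⟪y - y', k+θ⟫/L + ⟪y', v⟫/L`;  `L^n L^{-n} = 1`].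
 `f` is an amplitude: `IflAmp N r (2^N b b') f` (Leibniz: `norm_iteratedFDeriv_mul_le` / `R255.Cb.mul`, `∑ C(j,i) = 2^j`; translation: `iteratedFDeriv_comp_add_right`; conj = a linear isometry).   Then `ifl_decay`.
 Vanishing: `f θ ≠ 0 ⟹ ‖θ‖ ≤ r, ‖θ + v‖ ≤ r ⟹ ‖v‖ ≤ 2r`.
-/

set_option autoImplicit false

namespace Claimed.Agent.R257

open MeasureTheory Metric Set
open scoped ENNReal ContDiff InnerProductSpace Real

variable {n : ℕ}

/-- the substitution `ξ = w + L⁻¹ • (k + θ)`, no hypothesis on `F` -/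
theorem ifl_gram_subst {L : ℝ} (hL : 0 < L) (w k : E n) (F : E n → ℂ) :
    ∫ ξ, F ξ = ((L ^ n)⁻¹ : ℝ) • ∫ θ, F (w + L⁻¹ • (k + θ)) := by
  rw [integral_add_left_eq_self (fun x => F (w + L⁻¹ • x)) k,
    Measure.integral_comp_smul volume (fun x => F (w + x)) L⁻¹, finrank_euclideanSpace_fin,
    integral_add_left_eq_self F w, inv_pow, inv_inv, abs_of_pos (by positivity), smul_smul,
    inv_mul_cancel₀ (by positivity), one_smul]

theorem ifl_gram_E_add (s t : ℝ) : iflE (s + t) = iflE s * iflE t := by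
  unfold iflE
  rw [← Complex.exp_add, ← mul_add, Complex.ofReal_add]

theorem ifl_gram_E_norm (s : ℝ) : ‖iflE s‖ = 1 := by
  unfold iflE
  rw [mul_comm]
  exact Complex.norm_exp_ofReal_mul_I _

open scoped ComplexConjugate in
theorem ifl_gram_E_conj (s : ℝ) : conj (iflE s) = iflE (-s) := by
  unfold iflE
  rw [← Complex.exp_conj, map_mul, Complex.conj_I, Complex.conj_ofReal]
  congr 1
  push_cast
  ring

theorem ifl_gram_E_cont : Continuous iflE := by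
  unfold iflE
  fun_prop

open scoped ComplexConjugate in
/-- the product amplitude -/
theorem ifl_gram_amp {N : ℕ} {r b b' : ℝ} {a a' : E n → ℂ} (ha : IflAmp N r b a) (ha' : IflAmp N r b' a') (v : E n) :
    IflAmp N r (2 ^ N * b * b') fun θ => a θ * conj (a' (θ + v)) := by
  have hb : 0 ≤ b := (norm_nonneg _).trans (ha.bound 0 (Nat.zero_le _) 0)
  have hb' : 0 ≤ b' := (norm_nonneg _).trans (ha'.bound 0 (Nat.zero_le _) 0)
  have hg : (fun θ => conj (a' (θ + v))) = Complex.conjLIE ∘ fun θ => a' (θ + v) := rfl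
  have hs : ContDiff ℝ ∞ fun θ => conj (a' (θ + v)) := by
    rw [hg]
    exact Complex.conjLIE.toContinuousLinearEquiv.contDiff.comp
      (ha'.smooth.comp (contDiff_id.add contDiff_const))
  have hgb : ∀ j ≤ N, ∀ θ, ‖iteratedFDeriv ℝ j (fun θ => conj (a' (θ + v))) θ‖ ≤ b' := by
    intro j hj θ
    rw [hg, LinearIsometryEquiv.norm_iteratedFDeriv_comp_left, iteratedFDeriv_comp_add_right]
    exact ha'.bound j hj _
  refine ⟨ha.smooth.mul hs, fun θ hθ => ha.supp θ (left_ne_zero_of_mul hθ), fun j hj θ => ?_⟩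
  refine (norm_iteratedFDeriv_mul_le ha.smooth hs θ (n := j) (by exact_mod_cast le_top)).trans ?_
  calc ∑ i ∈ Finset.range (j + 1), (j.choose i : ℝ) * ‖iteratedFDeriv ℝ i a θ‖
          * ‖iteratedFDeriv ℝ (j - i) (fun θ => conj (a' (θ + v))) θ‖
      ≤ ∑ i ∈ Finset.range (j + 1), (j.choose i : ℝ) * b * b' := by
        refine Finset.sum_le_sum fun i hi => ?_
        have hij : i ≤ j := Nat.lt_succ_iff.1 (Finset.mem_range.1 hi)
        exact mul_le_mul (mul_le_mul_of_nonneg_left (ha.bound i (hij.trans hj) θ) (Nat.cast_nonneg _))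
          (hgb (j - i) ((Nat.sub_le _ _).trans hj) θ) (norm_nonneg _) (by positivity)
    _ = 2 ^ j * b * b' := by
        rw [← Finset.sum_mul, ← Finset.sum_mul, ← Nat.cast_sum, Nat.sum_range_choose]
        push_cast
        rfl
    _ ≤ 2 ^ N * b * b' := by
        have : (2 : ℝ) ^ j ≤ 2 ^ N := pow_le_pow_right₀ one_le_two hj
        gcongr

open scoped ComplexConjugate in
/-- the Gram integral is a Fourier transform -/
theorem ifl_gram_eq {L : ℝ} (hL : 0 < L) (w w' y y' k : E n) (a a' : E n → ℂ) :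
    ∃ κ₀ : ℝ, ∫ ξ, iflG L w y k a ξ * conj (iflG L w' y' k a' ξ)
      = (((((2 * π) ^ n)⁻¹) ^ 2 : ℝ) : ℂ) * iflE κ₀
        * iflFt (fun θ => a θ * conj (a' (θ + L • (w - w')))) (L⁻¹ • (y - y')) := by
  refine ⟨-(⟪y - y', k⟫_ℝ / L) + ⟪y', L • (w - w')⟫_ℝ / L, ?_⟩
  rw [ifl_gram_subst hL w k]
  have h1 : ∀ θ : E n, iflG L w y k a (w + L⁻¹ • (k + θ)) * conj (iflG L w' y' k a' (w + L⁻¹ • (k + θ)))
      = ((((((2 * π) ^ n)⁻¹) ^ 2 * L ^ n : ℝ) : ℂ) * iflE (-(⟪y - y', k⟫_ℝ / L) + ⟪y', L • (w - w')⟫_ℝ / L))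
        * (iflE (-⟪θ, L⁻¹ • (y - y')⟫_ℝ) * (a θ * conj (a' (θ + L • (w - w'))))) := by
    intro θ
    have e1 : L • (w + L⁻¹ • (k + θ) - w) - k = θ := by
      rw [add_sub_cancel_left, smul_smul, mul_inv_cancel₀ hL.ne', one_smul, add_sub_cancel_left]
    have e2 : L • (w + L⁻¹ • (k + θ) - w') - k = θ + L • (w - w') := by
      have : w + L⁻¹ • (k + θ) - w' = (w - w') + L⁻¹ • (k + θ) := by abel
      rw [this, smul_add, smul_smul, mul_inv_cancel₀ hL.ne', one_smul]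
      abel
    have e3 : ⟪y, w + L⁻¹ • (k + θ) - w⟫_ℝ = ⟪y, k + θ⟫_ℝ / L := by
      rw [add_sub_cancel_left, inner_smul_right, div_eq_inv_mul]
    have e4 : ⟪y', w + L⁻¹ • (k + θ) - w'⟫_ℝ = (⟪y', L • (w - w')⟫_ℝ + ⟪y', k + θ⟫_ℝ) / L := by
      have : w + L⁻¹ • (k + θ) - w' = L⁻¹ • (L • (w - w') + (k + θ)) := by
        rw [smul_add L⁻¹ (L • (w - w')), smul_smul, inv_mul_cancel₀ hL.ne', one_smul]
        abel
      rw [this, inner_smul_right, inner_add_right, div_eq_inv_mul]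
    have e5 : (L ^ ((n : ℝ) / 2)) * (L ^ ((n : ℝ) / 2)) = L ^ n := by
      rw [← Real.rpow_add hL, add_halves, Real.rpow_natCast]
    have e6 : iflE (-(⟪y, k + θ⟫_ℝ / L)) * iflE (-(-((⟪y', L • (w - w')⟫_ℝ + ⟪y', k + θ⟫_ℝ) / L)))
        = iflE (-(⟪y - y', k⟫_ℝ / L) + ⟪y', L • (w - w')⟫_ℝ / L) * iflE (-⟪θ, L⁻¹ • (y - y')⟫_ℝ) := by
      rw [← ifl_gram_E_add, ← ifl_gram_E_add]
      congr 1
      rw [inner_smul_right θ, real_inner_comm (y - y') θ]
      simp only [inner_add_right, inner_sub_left]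
      field_simp
      ring
    unfold iflG
    rw [e1, e2, e3, e4, map_mul, map_mul, Complex.conj_ofReal, ifl_gram_E_conj]
    have e7 : (((((2 * π) ^ n)⁻¹) ^ 2 * L ^ n : ℝ) : ℂ)
        = ((((2 * π) ^ n)⁻¹ * L ^ ((n : ℝ) / 2) : ℝ) : ℂ) * ((((2 * π) ^ n)⁻¹ * L ^ ((n : ℝ) / 2) : ℝ) : ℂ) := by
      rw [← Complex.ofReal_mul, ← e5]
      congr 1
      ring
    rw [e7]
    linear_combination (((((2 * π) ^ n)⁻¹ * L ^ ((n : ℝ) / 2) : ℝ) : ℂ) * ((((2 * π) ^ n)⁻¹ * L ^ ((n : ℝ) / 2) : ℝ) : ℂ)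
      * a θ * conj (a' (θ + L • (w - w')))) * e6
  simp only [h1]
  rw [integral_const_mul, Complex.real_smul, iflFt]
  have e8 : (((L ^ n)⁻¹ : ℝ) : ℂ) * (((((2 * π) ^ n)⁻¹) ^ 2 * L ^ n : ℝ) : ℂ) = (((((2 * π) ^ n)⁻¹) ^ 2 : ℝ) : ℂ) := by
    rw [← Complex.ofReal_mul]
    congr 1
    field_simp
  generalize (∫ θ : E n, iflE (-⟪θ, L⁻¹ • (y - y')⟫_ℝ) * (a θ * conj (a' (θ + L • (w - w'))))) = J
  linear_combination (iflE (-(⟪y - y', k⟫_ℝ / L) + ⟪y', L • (w - w')⟫_ℝ / L) * J) * e8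

open scoped ComplexConjugate in
/-- **L-IFL-GRAM** -/
theorem ifl_gram (n N : ℕ) :
    ∃ C : ℝ, 0 ≤ C ∧ ∀ (L r b b' : ℝ) (w w' y y' k : E n) (a a' : E n → ℂ), 0 < L → 0 ≤ r → IflAmp N r b a → IflAmp N r b' a' →
      ‖∫ ξ, iflG L w y k a ξ * conj (iflG L w' y' k a' ξ)‖ ≤ C * (1 + r) ^ n * b * b' * (1 + ‖L⁻¹ • (y - y')‖) ^ (-(N : ℤ)) ∧
      (2 * r < ‖L • (w - w')‖ → ∫ ξ, iflG L w y k a ξ * conj (iflG L w' y' k a' ξ) = 0) := by
  obtain ⟨C₀, hC₀, hdec⟩ := ifl_decay n N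
  refine ⟨(((2 * π) ^ n)⁻¹) ^ 2 * C₀ * 2 ^ N, by positivity, ?_⟩
  intro L r b b' w w' y y' k a a' hL hr ha ha'
  constructor
  · obtain ⟨κ₀, hκ⟩ := ifl_gram_eq hL w w' y y' k a a'
    rw [hκ, norm_mul, norm_mul, ifl_gram_E_norm, mul_one, Complex.norm_real,
      Real.norm_of_nonneg (by positivity)]
    have h1 := hdec _ r _ hr (ifl_gram_amp ha ha' (L • (w - w'))) (L⁻¹ • (y - y'))
    calc (((2 * π) ^ n)⁻¹) ^ 2 * ‖iflFt (fun θ => a θ * conj (a' (θ + L • (w - w')))) (L⁻¹ • (y - y'))‖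
        ≤ (((2 * π) ^ n)⁻¹) ^ 2 * (C₀ * (1 + r) ^ n * (2 ^ N * b * b') * (1 + ‖L⁻¹ • (y - y')‖) ^ (-(N : ℤ))) :=
          mul_le_mul_of_nonneg_left h1 (by positivity)
      _ = _ := by ring
  · intro hv
    refine (integral_congr_ae (Filter.Eventually.of_forall fun ξ => ?_)).trans (integral_zero _ _)
    show iflG L w y k a ξ * conj (iflG L w' y' k a' ξ) = 0
    by_contra hne
    have h1 : a (L • (ξ - w) - k) ≠ 0 := by
      intro h0
      apply hne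
      simp [iflG, h0]
    have h2 : a' (L • (ξ - w') - k) ≠ 0 := by
      intro h0
      apply hne
      simp [iflG, h0]
    have h3 := ha.supp _ h1
    have h4 := ha'.supp _ h2
    have e : L • (w - w') = (L • (ξ - w') - k) - (L • (ξ - w) - k) := by
      rw [sub_sub_sub_cancel_right, ← smul_sub, sub_sub_sub_cancel_left]
    rw [e] at hv
    have := norm_sub_le (L • (ξ - w') - k) (L • (ξ - w) - k)
    linarith

/-- **L-IFL-GRAM**: regularity of an exact input (continuous with compact support) -/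
theorem ifl_G_reg {L r b : ℝ} (hL : 0 < L) (w y k : E n) {a : E n → ℂ} (ha : IflAmp 0 r b a) :
    Continuous (iflG L w y k a) ∧ HasCompactSupport (iflG L w y k a) ∧ MemLp (iflG L w y k a) 2 volume ∧
      ∀ ξ, iflG L w y k a ξ ≠ 0 → ‖ξ - (w + L⁻¹ • k)‖ ≤ r / L := by
  have hc : Continuous (iflG L w y k a) := by
    unfold iflG
    exact (continuous_const.mul (ha.smooth.continuous.comp (by fun_prop))).mul
      (ifl_gram_E_cont.comp (by fun_prop))
  have hs : ∀ ξ, iflG L w y k a ξ ≠ 0 → ‖ξ - (w + L⁻¹ • k)‖ ≤ r / L := by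
    intro ξ hξ
    have h1 : a (L • (ξ - w) - k) ≠ 0 := by
      intro h0
      apply hξ
      simp [iflG, h0]
    have h2 := ha.supp _ h1
    have e : ξ - (w + L⁻¹ • k) = L⁻¹ • (L • (ξ - w) - k) := by
      rw [smul_sub, smul_smul, inv_mul_cancel₀ hL.ne', one_smul]
      abel
    rw [e, norm_smul, norm_inv, Real.norm_of_nonneg hL.le, div_eq_inv_mul]
    exact mul_le_mul_of_nonneg_left h2 (by positivity)
  have hcs : HasCompactSupport (iflG L w y k a) :=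
    HasCompactSupport.intro (isCompact_closedBall (w + L⁻¹ • k) (r / L)) fun ξ hξ => by
      by_contra h
      exact hξ (mem_closedBall_iff_norm.2 (hs ξ h))
  exact ⟨hc, hcs, hc.memLp_of_hasCompactSupport hcs, hs⟩

end Claimed.Agent.R257
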