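import Claimed.Agent.R257.Infra.Lay.Decay
import Claimed.Agent.R255.Pk.NspMain

/-!
# R257 / Infra / Lay / PktDecay : LEAF L-IFL-PKT (INFRA U5): decay of the native field of an amplitude about the label line, for ALL native times.      (architect helper245)   ~350 l.

`iflH a k (ζ,σ) = (2π)^{-n} ∫ a(θ) e(Ψ(θ)) dθ`,  `Ψ(θ) = ⟪ζ, k+θ⟫ - σ‖k+θ‖²`,  `DΨ(θ) v = ⟪ζ - 2σ(k+θ), v⟫`,  `D²Ψ = -2σ⟪·,·⟫`.     WLOG `1 ≤ 1 + r`; put `ϱ = ‖k‖ + r + 1`.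
CASE 1: `‖ζ‖ ≤ 4|σ|ϱ` or `‖ζ‖ ≤ 1`.   Trivial bound `‖iflH‖ ≤ (2π)^{-n} b vol(closedBall 0 r)`, and `(1+‖ζ‖)^A ≤ (1 + 4|σ|ϱ)^A·2^A ≤ C (1+|σ|)^A (1+‖k‖)^A` with `C = C(A,r)`.
CASE 2: `‖ζ‖ > 4|σ|ϱ`, `‖ζ‖ > 1`.   `R255.pk_nsp` (`M = A`, `μ = volume`) with `Ω = ball 0 (r+1)`, `S = closedBall 0 r`, `e = ‖ζ‖⁻¹ • ζ`, `m = ‖ζ‖/2`, amplitude `b⁻¹ • a` (bounds `1`; `b = 0`: `a = 0`), phase `Ψ`:
 `∂_e Ψ(θ) = ‖ζ‖ - 2σ⟪k+θ,e⟫ ≥ ‖ζ‖ - 2|σ|ϱ ≥ m`;   `Cb (Λ_j m)` for `θ ↦ ∂_e Ψ(θ)` with `Λ 0 = 3`, `Λ 1 = 1` (`2|σ| ≤ ‖ζ‖/(2ϱ) ≤ m`), `Λ j = 0` (`j ≥ 2`): an affine function.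
 Result `≤ C m^{-A} vol S`, `m^{-A} = 2^A ‖ζ‖^{-A} ≤ 4^A (1+‖ζ‖)^{-A}`.
-/

set_option autoImplicit false

namespace Claimed.Agent.R257

open MeasureTheory Metric Set
open scoped ENNReal ContDiff InnerProductSpace Real

variable {n : ℕ}

/-- **L-IFL-PKT** -/
theorem ifl_pkt_decay (n A : ℕ) (r : ℝ) (hr : 0 ≤ r) :
    ∃ C : ℝ, 0 ≤ C ∧ ∀ (a : E n → ℂ) (b : ℝ) (k : E n) (X : ST n), IflAmp A r b a →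
      ‖iflH a k X‖ ≤ C * b * (1 + ‖k‖) ^ A * (1 + |X.2|) ^ A * (1 + ‖X.1‖) ^ (-(A : ℤ)) := by
  obtain ⟨C, hC0, hC⟩ := ifl_decay_core n A
  set vb : ℝ := (volume (ball (0 : E n) 1)).toReal with hvb
  have hvb0 : 0 ≤ vb := ENNReal.toReal_nonneg
  set c0 : ℝ := ((2 * π) ^ n)⁻¹ with hc0
  have hc00 : 0 ≤ c0 := by rw [hc0]; positivity
  refine ⟨c0 * (C + 1) * (4 * (r + 1)) ^ A * (r ^ n * vb), by positivity, fun a b k X ha => ?_⟩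
  obtain ⟨ζ, σ⟩ := X
  have hb0 := ha.nonneg
  have hk0 : 0 ≤ ‖k‖ := norm_nonneg k
  have hσ0 : 0 ≤ |σ| := abs_nonneg σ
  have hζ0 : 0 ≤ ‖ζ‖ := norm_nonneg ζ
  have e1 : ‖iflH a k (ζ, σ)‖ = c0 * ‖∫ θ, a θ * iflE (iflDecPh ζ k σ θ)‖ := by
    unfold iflH iflDecPh
    rw [norm_mul, Complex.norm_real, Real.norm_eq_abs, abs_of_nonneg hc00]
  show ‖iflH a k (ζ, σ)‖ ≤ _ * b * (1 + ‖k‖) ^ A * (1 + |σ|) ^ A * (1 + ‖ζ‖) ^ (-(A : ℤ))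
  rw [e1, zpow_neg, zpow_natCast]
  have hpw : 0 < (1 + ‖ζ‖) ^ A := by positivity
  have hk1 : 1 ≤ (1 + ‖k‖) ^ A := one_le_pow₀ (by linarith)
  have hσ1 : 1 ≤ (1 + |σ|) ^ A := one_le_pow₀ (by linarith)
  by_cases hcase : 1 < ‖ζ‖ ∧ 4 * |σ| * (‖k‖ + r + 1) ≤ ‖ζ‖
  · obtain ⟨h1, h2⟩ := hcase
    have key := hC a r b ζ k σ hr ha (by linarith) h2
    have h3 : ((‖ζ‖ / 2) ^ A)⁻¹ ≤ (4 * (r + 1)) ^ A * ((1 + ‖ζ‖) ^ A)⁻¹ := by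
      rw [← div_eq_mul_inv, le_div_iff₀ hpw, inv_mul_le_iff₀ (by positivity), ← mul_pow]
      refine pow_le_pow_left₀ (by positivity) ?_ A
      nlinarith
    have hkσ : 1 ≤ (1 + ‖k‖) ^ A * (1 + |σ|) ^ A := one_le_mul_of_one_le_of_one_le hk1 hσ1
    calc c0 * ‖∫ θ, a θ * iflE (iflDecPh ζ k σ θ)‖
        ≤ c0 * (C * b * ((‖ζ‖ / 2) ^ A)⁻¹ * (r ^ n * vb)) := by gcongr
      _ ≤ c0 * ((C + 1) * b * ((4 * (r + 1)) ^ A * ((1 + ‖ζ‖) ^ A)⁻¹) * (r ^ n * vb)) := by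
          gcongr
          linarith
      _ = c0 * ((C + 1) * b * ((4 * (r + 1)) ^ A * ((1 + ‖ζ‖) ^ A)⁻¹) * (r ^ n * vb)) * 1 := (mul_one _).symm
      _ ≤ c0 * ((C + 1) * b * ((4 * (r + 1)) ^ A * ((1 + ‖ζ‖) ^ A)⁻¹) * (r ^ n * vb)) * ((1 + ‖k‖) ^ A * (1 + |σ|) ^ A) := by
          gcongr
      _ = _ := by ring
  · have key := ifl_decay_triv ha hr (iflDecPh ζ k σ)
    rw [← hvb] at key
    have h3 : 1 + ‖ζ‖ ≤ 4 * (r + 1) * ((1 + ‖k‖) * (1 + |σ|)) := by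
      rw [not_and_or, not_lt, not_le] at hcase
      have hprod : 0 ≤ ‖k‖ * |σ| := by positivity
      have hrk : 0 ≤ r * ‖k‖ := by positivity
      have hrs : 0 ≤ r * |σ| := by positivity
      have hrks : 0 ≤ r * (‖k‖ * |σ|) := by positivity
      rcases hcase with h | h
      · nlinarith
      · nlinarith
    have h4 : 1 ≤ (4 * (r + 1)) ^ A * ((1 + ‖k‖) ^ A * (1 + |σ|) ^ A) * ((1 + ‖ζ‖) ^ A)⁻¹ := by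
      rw [← div_eq_mul_inv, le_div_iff₀ hpw, one_mul, ← mul_pow, ← mul_pow]
      exact pow_le_pow_left₀ (by positivity) h3 A
    calc c0 * ‖∫ θ, a θ * iflE (iflDecPh ζ k σ θ)‖ ≤ c0 * (b * (r ^ n * vb)) := by gcongr
      _ = c0 * (b * (r ^ n * vb)) * 1 := (mul_one _).symm
      _ ≤ c0 * (b * (r ^ n * vb)) * ((4 * (r + 1)) ^ A * ((1 + ‖k‖) ^ A * (1 + |σ|) ^ A) * ((1 + ‖ζ‖) ^ A)⁻¹) := by
          gcongr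
      _ ≤ (C + 1) * (c0 * (b * (r ^ n * vb)) * ((4 * (r + 1)) ^ A * ((1 + ‖k‖) ^ A * (1 + |σ|) ^ A) * ((1 + ‖ζ‖) ^ A)⁻¹)) := by
          have : 0 ≤ c0 * (b * (r ^ n * vb)) * ((4 * (r + 1)) ^ A * ((1 + ‖k‖) ^ A * (1 + |σ|) ^ A) * ((1 + ‖ζ‖) ^ A)⁻¹) := by
            positivity
          nlinarith
      _ = _ := by ring

end Claimed.Agent.R257
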