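import Claimed.Agent.R257.Infra.Lay.Defs

/-!
# R257 / Infra / Lay / Count : LEAF L-IFL-COUNT (INFRA U1): sums over families of bounded unit scale multiplicity.      (architect helper245)   ~150 l., Mathlib only.

PLAN (`ifl_count`).  `μ` = a Haar measure of `V` (`MeasureTheory.Measure.addHaar`), `β = μ (closedBall 0 (1/2)) ∈ (0,∞)`.   For `v ∈ closedBall (x α) (1/2)`: `1 + ‖v - p‖ ≤ (3/2)(1 + ‖x α - p‖)`, so
 `(1 + ‖x α - p‖)^(-M) ≤ (3/2)^M β⁻¹ ∫_{closedBall (x α) (1/2)} (1 + ‖v - p‖)^(-M) dv`.   Sum over `α ∈ s`: `∑_α 1_{closedBall (x α) (1/2)}(v) ≤ m₀` (the `α` with `x α ∈ closedBall v (1/2) ⊆ closedBall v 1`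
 form a subfamily in one unit ball).   `∫ (1 + ‖v - p‖)^(-M) dv = ∫ (1 + ‖v‖)^(-M) dv < ∞` (`integrable_one_add_norm`, `finrank < M`; translation invariance).   `C = (3/2)^M β⁻¹ ∫ (1+‖v‖)^(-M)`.
`ifl_count_tail`: `(1+a)^(-(M+K)) ≤ (1+r)^(-K) (1+a)^(-M)` for `a ≥ r ≥ 0`.
-/

set_option autoImplicit false

namespace Claimed.Agent.R257

open MeasureTheory Metric Set
open scoped ENNReal ContDiff InnerProductSpace Real

variable {n : ℕ}

theorem ifl_count_zpow (a : ℝ) (M : ℕ) : (1 + a) ^ (-(M : ℤ)) = ((1 + a) ^ M)⁻¹ := by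
  rw [zpow_neg, zpow_natCast]

theorem ifl_count_cmp {a b : ℝ} (ha : 0 ≤ a) (hb : 0 ≤ b) (hab : b ≤ a + 1 / 2) (M : ℕ) :
    (1 + a) ^ (-(M : ℤ)) ≤ (3 / 2 : ℝ) ^ M * (1 + b) ^ (-(M : ℤ)) := by
  rw [ifl_count_zpow, ifl_count_zpow, ← div_eq_mul_inv, le_div_iff₀ (by positivity), inv_mul_le_iff₀ (by positivity),
    ← mul_pow]
  exact pow_le_pow_left₀ (by positivity) (by linarith) M

/-- **L-IFL-COUNT** -/
theorem ifl_count (V : Type) [NormedAddCommGroup V] [NormedSpace ℝ V] [FiniteDimensional ℝ V] [MeasurableSpace V] [BorelSpace V]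
    (M : ℕ) (hM : Module.finrank ℝ V < M) :
    ∃ C : ℝ, 0 ≤ C ∧ ∀ (ι : Type) (s : Finset ι) (x : ι → V) (m₀ : ℕ) (p : V), IflMult s x m₀ →
      ∑ α ∈ s, (1 + ‖x α - p‖) ^ (-(M : ℤ)) ≤ C * m₀ := by
  classical
  set μ : Measure V := Measure.addHaar with hμ
  have hg : Integrable (fun v : V => (1 + ‖v‖) ^ (-(M : ℤ))) μ := by
    have h1 := integrable_one_add_norm (μ := μ) (r := (M : ℝ)) (by exact_mod_cast hM)
    refine h1.congr (Filter.Eventually.of_forall fun v => ?_)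
    simp only []
    rw [ifl_count_zpow, Real.rpow_neg (by positivity), Real.rpow_natCast]
  set I : ℝ := ∫ v, (1 + ‖v‖) ^ (-(M : ℤ)) ∂μ with hI
  have hI0 : 0 ≤ I := integral_nonneg fun v => by positivity
  set β : ℝ := (μ (closedBall (0 : V) (1 / 2))).toReal with hβ
  have hβfin : μ (closedBall (0 : V) (1 / 2)) ≠ ⊤ := (isCompact_closedBall _ _).measure_lt_top.ne
  have hβ0 : 0 < β :=
    ENNReal.toReal_pos (measure_closedBall_pos μ _ (by norm_num)).ne' hβfin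
  refine ⟨(3 / 2 : ℝ) ^ M * β⁻¹ * I, by positivity, fun ι s x m₀ p hm => ?_⟩
  set G : V → ℝ := fun v => (1 + ‖v - p‖) ^ (-(M : ℤ)) with hG
  have hGi : Integrable G μ := hg.comp_sub_right p
  have hG0 : ∀ v, 0 ≤ G v := fun v => by positivity
  have hGI : ∫ v, G v ∂μ = I := integral_sub_right_eq_self (fun v : V => (1 + ‖v‖) ^ (-(M : ℤ))) p
  have hone : ∀ α ∈ s, β * (1 + ‖x α - p‖) ^ (-(M : ℤ))
      ≤ (3 / 2 : ℝ) ^ M * ∫ v, (closedBall (x α) (1 / 2)).indicator G v ∂μ := by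
    intro α _
    rw [integral_indicator measurableSet_closedBall, ← integral_const_mul]
    have hvol : (μ (closedBall (x α) (1 / 2))).toReal = β := by
      rw [Measure.addHaar_closedBall_center]
    have hfin : μ (closedBall (x α) (1 / 2)) ≠ ⊤ := (isCompact_closedBall _ _).measure_lt_top.ne
    have h1 : β * (1 + ‖x α - p‖) ^ (-(M : ℤ)) = ∫ _v in closedBall (x α) (1 / 2), (1 + ‖x α - p‖) ^ (-(M : ℤ)) ∂μ := by
      rw [setIntegral_const, smul_eq_mul, Measure.real, hvol]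
    rw [h1]
    refine setIntegral_mono_on (integrableOn_const hfin) (hGi.integrableOn.const_mul _) measurableSet_closedBall
      fun v hv => ?_
    refine ifl_count_cmp (norm_nonneg _) (norm_nonneg _) ?_ M
    have h2 : ‖v - x α‖ ≤ 1 / 2 := by simpa [dist_eq_norm] using hv
    calc ‖v - p‖ = ‖(x α - p) + (v - x α)‖ := by congr 1; abel
      _ ≤ ‖x α - p‖ + ‖v - x α‖ := norm_add_le _ _
      _ ≤ _ := by linarith
  have hsum : ∑ α ∈ s, ∫ v, (closedBall (x α) (1 / 2)).indicator G v ∂μ ≤ m₀ * I := by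
    rw [← integral_finsetSum _ fun α _ => hGi.indicator measurableSet_closedBall, ← hGI, ← integral_const_mul]
    refine integral_mono (integrable_finsetSum _ fun α _ => hGi.indicator measurableSet_closedBall) (hGi.const_mul _)
      fun v => ?_
    simp only [Set.indicator_apply]
    rw [← Finset.sum_filter, Finset.sum_const, nsmul_eq_mul]
    refine mul_le_mul_of_nonneg_right ?_ (hG0 v)
    have := hm v (s.filter fun α => v ∈ closedBall (x α) (1 / 2)) (Finset.filter_subset _ _) (by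
      intro α hα
      have h2 : v ∈ closedBall (x α) (1 / 2) := (Finset.mem_filter.1 hα).2
      rw [mem_closedBall] at h2 ⊢
      rw [dist_comm]
      linarith)
    exact_mod_cast this
  have h3 : β * ∑ α ∈ s, (1 + ‖x α - p‖) ^ (-(M : ℤ)) ≤ (3 / 2 : ℝ) ^ M * (m₀ * I) := by
    rw [Finset.mul_sum]
    refine (Finset.sum_le_sum hone).trans ?_
    rw [← Finset.mul_sum]
    exact mul_le_mul_of_nonneg_left hsum (by positivity)
  calc ∑ α ∈ s, (1 + ‖x α - p‖) ^ (-(M : ℤ)) = β⁻¹ * (β * ∑ α ∈ s, (1 + ‖x α - p‖) ^ (-(M : ℤ))) := by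
        rw [← mul_assoc, inv_mul_cancel₀ hβ0.ne', one_mul]
    _ ≤ β⁻¹ * ((3 / 2 : ℝ) ^ M * (m₀ * I)) := mul_le_mul_of_nonneg_left h3 (by positivity)
    _ = _ := by ring

/-- **L-IFL-COUNT**, tail form -/
theorem ifl_count_tail (V : Type) [NormedAddCommGroup V] [NormedSpace ℝ V] [FiniteDimensional ℝ V] [MeasurableSpace V] [BorelSpace V]
    (M K : ℕ) (hM : Module.finrank ℝ V < M) :
    ∃ C : ℝ, 0 ≤ C ∧ ∀ (ι : Type) (s : Finset ι) (x : ι → V) (m₀ : ℕ) (p : V) (r : ℝ), 0 ≤ r → IflMult s x m₀ →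
      (∀ α ∈ s, r ≤ ‖x α - p‖) → ∑ α ∈ s, (1 + ‖x α - p‖) ^ (-((M + K : ℕ) : ℤ)) ≤ C * m₀ * (1 + r) ^ (-(K : ℤ)) := by
  obtain ⟨C, hC, h⟩ := ifl_count V M hM
  refine ⟨C, hC, fun ι s x m₀ p r hr hm hfar => ?_⟩
  have h1 : ∀ α ∈ s, (1 + ‖x α - p‖) ^ (-((M + K : ℕ) : ℤ)) ≤ (1 + ‖x α - p‖) ^ (-(M : ℤ)) * (1 + r) ^ (-(K : ℤ)) := by
    intro α hα
    rw [ifl_count_zpow, ifl_count_zpow, ifl_count_zpow, pow_add, mul_inv]
    refine mul_le_mul_of_nonneg_left ?_ (by positivity)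
    exact inv_anti₀ (by positivity) (pow_le_pow_left₀ (by positivity) (by linarith [hfar α hα]) K)
  refine (Finset.sum_le_sum h1).trans ?_
  rw [← Finset.sum_mul]
  exact mul_le_mul_of_nonneg_right (h ι s x m₀ p hm) (by positivity)

end Claimed.Agent.R257
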