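import Claimed.Agent.R257.Infra.Lay.Gram
import Claimed.Agent.R257.Infra.Lay.Count
import Claimed.Agent.R255.Pk.Schur

/-!
# R257 / Infra / Lay / Bessel : the Bessel bound for EVERY subarray of exact inputs with a common native shift.      (helper245)   GLUE: no `sorry` of its own.

`ifl_gram` (pair estimate) + `ifl_count` on `E n × E n` (phase space counting) + `R255.pk_bessel_fun_synth` (Schur).
-/

set_option autoImplicit false

namespace Claimed.Agent.R257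

open MeasureTheory Metric Set
open scoped ENNReal ContDiff InnerProductSpace Real

variable {n : ℕ}

theorem IflMult.mono {V ι : Type} [PseudoMetricSpace V] {s t : Finset ι} {x : ι → V} {m₀ : ℕ} (h : IflMult s x m₀)
    (hts : t ⊆ s) : IflMult t x m₀ := fun q u hu hq => h q u (hu.trans hts) hq

theorem ifl_bessel_elem {N : ℕ} {r D T : ℝ} (hr : 0 ≤ r) (hD : 0 ≤ D) (hT : T ≤ max (2 * r) D) (hT0 : 0 ≤ T) :
    (1 + D) ^ (-(N : ℤ)) ≤ (1 + 2 * r) ^ N * (1 + T) ^ (-(N : ℤ)) := by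
  have h1 : 1 + T ≤ (1 + 2 * r) * (1 + D) := by
    rcases le_max_iff.1 hT with h | h
    · nlinarith
    · nlinarith
  rw [zpow_neg, zpow_neg, zpow_natCast, zpow_natCast]
  have hp1 : 0 < (1 + D) ^ N := by positivity
  have hp2 : 0 < (1 + T) ^ N := by positivity
  rw [← div_eq_mul_inv, le_div_iff₀ hp2, inv_mul_le_iff₀ hp1, ← mul_pow, mul_comm]
  exact pow_le_pow_left₀ (by positivity) (by linarith) N

/-- **the Bessel bound** -/
theorem ifl_bessel (n : ℕ) (r : ℝ) (hr : 0 ≤ r) :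
    ∃ C : ℝ, 0 ≤ C ∧ ∀ (ι : Type) (s : Finset ι) (L b : ℝ) (om y : ι → E n) (k : E n) (a : ι → E n → ℂ) (m₀ : ℕ),
      0 < L → (∀ α ∈ s, IflAmp (2 * n + 1) r b (a α)) → IflMult s (fun α => (L • om α, L⁻¹ • y α)) m₀ →
      ∀ t ⊆ s, ∀ c : ι → ℂ,
        ∫ ξ, ‖∑ α ∈ t, c α * iflG L (om α) (y α) k (a α) ξ‖ ^ 2 ≤ C * m₀ * b ^ 2 * energy t c := by
  obtain ⟨Cg, hCg, Hg⟩ := ifl_gram n (2 * n + 1)
  obtain ⟨Cc, hCc, Hc⟩ := ifl_count (E n × E n) (2 * n + 1) (by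
    rw [Module.finrank_prod, finrank_euclideanSpace_fin]; omega)
  refine ⟨Cg * (1 + r) ^ n * (1 + 2 * r) ^ (2 * n + 1) * Cc, by positivity, ?_⟩
  intro ι s L b om y k a m₀ hL ha hm t hts c
  have ha0 : ∀ α ∈ t, IflAmp 0 r b (a α) := fun α hα =>
    ⟨(ha α (hts hα)).smooth, (ha α (hts hα)).supp, fun j hj θ => (ha α (hts hα)).bound j (by omega) θ⟩
  have hmem : ∀ α ∈ t, MemLp (iflG L (om α) (y α) k (a α)) 2 volume := fun α hα =>
    (ifl_G_reg hL (om α) (y α) k (ha0 α hα)).2.2.1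
  have hrow : ∀ i ∈ t, ∑ j ∈ t, ‖∫ ξ, iflG L (om i) (y i) k (a i) ξ * (starRingEnd ℂ) (iflG L (om j) (y j) k (a j) ξ)‖
      ≤ Cg * (1 + r) ^ n * (1 + 2 * r) ^ (2 * n + 1) * Cc * m₀ * b ^ 2 := by
    intro i hi
    have hb : 0 ≤ b := (norm_nonneg _).trans ((ha i (hts hi)).bound 0 (by omega) 0)
    have h1 : ∀ j ∈ t, ‖∫ ξ, iflG L (om i) (y i) k (a i) ξ * (starRingEnd ℂ) (iflG L (om j) (y j) k (a j) ξ)‖
        ≤ (Cg * (1 + r) ^ n * b * b * (1 + 2 * r) ^ (2 * n + 1)) *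
          (1 + ‖((L • om j, L⁻¹ • y j) : E n × E n) - (L • om i, L⁻¹ • y i)‖) ^ (-((2 * n + 1 : ℕ) : ℤ)) := by
      intro j hj
      obtain ⟨g1, g2⟩ := Hg L r b b (om i) (om j) (y i) (y j) k (a i) (a j) hL hr (ha i (hts hi)) (ha j (hts hj))
      by_cases hv : 2 * r < ‖L • (om i - om j)‖
      · rw [g2 hv, norm_zero]
        positivity
      · push Not at hv
        refine g1.trans ?_
        have hT : ‖((L • om j, L⁻¹ • y j) : E n × E n) - (L • om i, L⁻¹ • y i)‖ ≤ max (2 * r) ‖L⁻¹ • (y i - y j)‖ := by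
          rw [Prod.mk_sub_mk, Prod.norm_mk, ← smul_sub, ← smul_sub, ← neg_sub (om i) (om j), ← neg_sub (y i) (y j),
            smul_neg, smul_neg, norm_neg, norm_neg]
          exact max_le_max hv le_rfl
        have h2 := ifl_bessel_elem (N := 2 * n + 1) hr (norm_nonneg (L⁻¹ • (y i - y j))) hT (norm_nonneg _)
        calc Cg * (1 + r) ^ n * b * b * (1 + ‖L⁻¹ • (y i - y j)‖) ^ (-((2 * n + 1 : ℕ) : ℤ))
            ≤ Cg * (1 + r) ^ n * b * b * ((1 + 2 * r) ^ (2 * n + 1) *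
              (1 + ‖((L • om j, L⁻¹ • y j) : E n × E n) - (L • om i, L⁻¹ • y i)‖) ^ (-((2 * n + 1 : ℕ) : ℤ))) :=
              mul_le_mul_of_nonneg_left h2 (by positivity)
          _ = _ := by ring
    refine (Finset.sum_le_sum h1).trans ?_
    rw [← Finset.mul_sum]
    have h3 := Hc ι t (fun α => ((L • om α, L⁻¹ • y α) : E n × E n)) m₀ (L • om i, L⁻¹ • y i) (hm.mono hts)
    calc (Cg * (1 + r) ^ n * b * b * (1 + 2 * r) ^ (2 * n + 1)) *
          ∑ j ∈ t, (1 + ‖((L • om j, L⁻¹ • y j) : E n × E n) - (L • om i, L⁻¹ • y i)‖) ^ (-((2 * n + 1 : ℕ) : ℤ))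
        ≤ (Cg * (1 + r) ^ n * b * b * (1 + 2 * r) ^ (2 * n + 1)) * (Cc * m₀) :=
          mul_le_mul_of_nonneg_left h3 (by positivity)
      _ = _ := by ring
  have h := R255.pk_bessel_fun_synth volume t (fun α => iflG L (om α) (y α) k (a α)) hmem hrow c
  unfold energy
  exact h

end Claimed.Agent.R257
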