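import Claimed.Agent.R257.Infra.Lay.Defs

/-!
# R257 / Infra / Lay / Win : LEAF L-IFL-WIN (INFRA U3, window part): the lattice partition `∑_k ρ(η - k) = 1` on `E n`.      (architect helper245)   ~200 l.

Tools: `R255.pk_win1_smooth`, `pk_win1_supp`, `pk_win1_range`, `pk_win1_sum` (`R255/Pk/Window.lean`).
PLAN.  smooth: finite product of `pkWin1 ∘ (coordinate)` (`contDiff_prod`, `EuclideanSpace.proj`).   supp: a factor vanishes.   `‖θ‖² = ∑ θ_i² ≤ n` (`EuclideanSpace.norm_eq`).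
 sum: `T i = {⌊η i⌋, ⌊η i⌋ + 1}`; `∏_i ∑_{j ∈ T i} χ(η_i - j)² = ∑_{k ∈ Fintype.piFinset T} ∏_i χ(η_i - k_i)²` (`Finset.prod_univ_sum`); terms off `piFinset T` vanish; `hasSum_sum_of_ne_finset_zero`.
-/

set_option autoImplicit false

namespace Claimed.Agent.R257

open MeasureTheory Metric Set
open scoped ENNReal ContDiff InnerProductSpace Real

variable {n : ℕ}

/-- **L-IFL-WIN** -/
theorem ifl_win_smooth : ContDiff ℝ ∞ (iflWin : E n → ℝ) := by
  unfold iflWin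
  apply contDiff_prod
  intro i _
  exact (R255.pk_win1_smooth.comp (EuclideanSpace.proj i : E n →L[ℝ] ℝ).contDiff).pow 2

/-- **L-IFL-WIN** -/
theorem ifl_win_supp (θ : E n) (h : iflWin θ ≠ 0) : ∀ i, |θ i| < 1 := by
  intro i
  unfold iflWin at h
  rw [Finset.prod_ne_zero_iff] at h
  apply R255.pk_win1_supp
  intro h0
  exact h i (Finset.mem_univ i) (by rw [h0]; norm_num)

/-- **L-IFL-WIN** -/
theorem ifl_win_supp_norm (θ : E n) (h : iflWin θ ≠ 0) : ‖θ‖ ≤ Real.sqrt n := by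
  rw [EuclideanSpace.norm_eq]
  apply Real.sqrt_le_sqrt
  have h1 : ∀ i ∈ (Finset.univ : Finset (Fin n)), ‖θ i‖ ^ 2 ≤ (1 : ℝ) := by
    intro i _
    rw [Real.norm_eq_abs]
    exact pow_le_one₀ (abs_nonneg _) (ifl_win_supp θ h i).le
  calc ∑ i, ‖θ i‖ ^ 2 ≤ ∑ _i : Fin n, (1 : ℝ) := Finset.sum_le_sum h1
    _ = n := by simp

/-- **L-IFL-WIN** -/
theorem ifl_win_range (θ : E n) : 0 ≤ iflWin θ ∧ iflWin θ ≤ 1 := by
  unfold iflWin
  constructor
  · exact Finset.prod_nonneg fun i _ => sq_nonneg _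
  · apply Finset.prod_le_one (fun i _ => sq_nonneg _)
    intro i _
    exact pow_le_one₀ (R255.pk_win1_range _).1 (R255.pk_win1_range _).2

/-- **L-IFL-WIN** -/
theorem ifl_win_sum (η : E n) : HasSum (fun k : Fin n → ℤ => iflWin (η - iflLat k)) 1 := by
  let T : Fin n → Finset ℤ := fun i => Finset.Icc (⌊η i⌋ - 1) (⌊η i⌋ + 1)
  have hT : ∀ (i : Fin n) (k : ℤ), |η i - k| < 1 → k ∈ T i := by
    intro i k hk
    rw [abs_lt] at hk
    rw [Finset.mem_Icc]
    have h1 : (⌊η i⌋ : ℝ) ≤ η i := Int.floor_le _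
    have h2 : η i < ⌊η i⌋ + 1 := Int.lt_floor_add_one _
    constructor
    · have : ((⌊η i⌋ - 1 : ℤ) : ℝ) < (k : ℝ) + 1 := by push_cast; linarith
      have : (⌊η i⌋ - 1 : ℤ) < k + 1 := by exact_mod_cast this
      omega
    · have : (k : ℝ) < ((⌊η i⌋ + 1 + 1 : ℤ) : ℝ) := by push_cast; linarith
      have : k < ⌊η i⌋ + 1 + 1 := by exact_mod_cast this
      omega
  have hco : ∀ (k : Fin n → ℤ), iflWin (η - iflLat k) = ∏ i, R255.pkWin1 (η i - k i) ^ 2 := by
    intro k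
    rfl
  have hz : ∀ k ∉ Fintype.piFinset T, iflWin (η - iflLat k) = 0 := by
    intro k hk
    rw [Fintype.mem_piFinset] at hk
    push Not at hk
    obtain ⟨i, hi⟩ := hk
    rw [hco]
    apply Finset.prod_eq_zero (Finset.mem_univ i)
    have : R255.pkWin1 (η i - k i) = 0 := by
      by_contra hne
      exact hi (hT i (k i) (R255.pk_win1_supp _ hne))
    rw [this]; norm_num
  have hs : HasSum (fun k : Fin n → ℤ => iflWin (η - iflLat k))
      (∑ k ∈ Fintype.piFinset T, iflWin (η - iflLat k)) := hasSum_sum_of_ne_finset_zero hz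
  have e : ∑ k ∈ Fintype.piFinset T, iflWin (η - iflLat k) = 1 := by
    simp_rw [hco]
    rw [← Finset.prod_univ_sum T (fun i j => R255.pkWin1 (η i - j) ^ 2)]
    apply Finset.prod_eq_one
    intro i _
    exact R255.pk_win1_sum (η i) (T i) (hT i)
  rwa [e] at hs

/-- **L-IFL-WIN**: bounds on all derivatives (`R255.pk_cb_of_compact`) -/
theorem ifl_win_cb (n : ℕ) : ∃ Λ : ℕ → ℝ, ∀ (j : ℕ) (θ : E n), ‖iteratedFDeriv ℝ j (iflWin : E n → ℝ) θ‖ ≤ Λ j := by
  have hc : HasCompactSupport (iflWin : E n → ℝ) :=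
    HasCompactSupport.of_support_subset_isCompact (isCompact_closedBall (0 : E n) (Real.sqrt n))
      (fun θ hθ => by
        rw [mem_closedBall_zero_iff]
        exact ifl_win_supp_norm θ hθ)
  have hex : ∀ j : ℕ, ∃ C : ℝ, ∀ θ : E n, ‖iteratedFDeriv ℝ j (iflWin : E n → ℝ) θ‖ ≤ C := fun j =>
    (hc.iteratedFDeriv j).exists_bound_of_continuous
      (ifl_win_smooth.continuous_iteratedFDeriv (by exact_mod_cast le_top))
  choose Λ hΛ using hex
  exact ⟨Λ, hΛ⟩

end Claimed.Agent.R257
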