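import Claimed.Agent.R257.Infra.Lay.Sft
import Claimed.Agent.R257.Infra.Lay.Win
import Claimed.Agent.R255.Pk.CbCpt

/-!
# R257 / Infra / Lay / Amp : LEAF L-IFL-AMP: bounds of the centred native amplitudes `a_κ(θ) = ρ(θ) b_l(k+θ)`.      (architect helper245)   ~400 l.

`b_l(k+θ) = P⁻¹ Φ(F θ)`,  `Φ = iflSft φ`,  `F θ = (k+θ, c - ‖k+θ‖²)`,  `c = 2πl/P`.       Take `J = N := 2A' + 4Nd` (any larger value is fine), `Λ` from `ifl_sft_bound n N R B`.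
 (1) on `Ω = ball 0 (√n + 1)`, with `T = 1 + ‖k‖ + |l|`:  `‖F θ‖ ≤ C₀ T²`, `‖DF‖ ≤ C₀ T`, `‖D²F‖ ≤ 2`, `D^jF = 0` (`j ≥ 3`), `C₀ = C₀(n,P)`.
 (2) LOWER BOUND: `T ≤ C₁ (1 + ‖F θ‖)²`  [`2π|l|/P ≤ |τ| + ‖η‖²`, `‖k‖ ≤ ‖η‖ + √n + 1`, `‖F θ‖ = max(‖η‖,|τ|)`], so `‖D^iΦ(F θ)‖ ≤ Λ i (T/C₁)^(-N/2)`.
 (3) chain rule `norm_iteratedFDeriv_comp_le` (or `R255.Cb.comp` with `Ω' = univ` after restricting... the bound of `Φ` is only needed at the points `F θ`: use `norm_iteratedFDerivWithin_comp_le` at the point): `‖D^j(Φ∘F)(θ)‖ ≤ j! (max_i Λ i)(T/C₁)^(-N/2) (C₀T²)^j`, `j ≤ Nd`.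
 (4) Leibniz with `ρ` (`ifl_win_cb`, `norm_iteratedFDeriv_mul_le`); off `Ω` the product vanishes identically near the point (`ifl_win_supp_norm`: the support of `ρ` is in `closedBall 0 √n`).    `T^(2Nd - N/2) = T^(-A')`.
 smoothness: `ifl_win_smooth`, `ifl_sft_bound`, `F` polynomial.
-/

set_option autoImplicit false

namespace Claimed.Agent.R257

open MeasureTheory Metric Set
open scoped ENNReal ContDiff InnerProductSpace Real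

variable {n : ℕ}

/-- the graph map of the (shifted, reflected) paraboloid -/
noncomputable def iflAmpS (n : ℕ) (c : ℝ) (η : E n) : ST n := (η, c - ‖η‖ ^ 2)

/-- the linear part of the derivative of `iflAmpS` -/
noncomputable def iflAmpT (n : ℕ) : E n →L[ℝ] (E n →L[ℝ] ST n) :=
  (ContinuousLinearMap.compL ℝ (E n) ℝ (ST n) (ContinuousLinearMap.inr ℝ (E n) ℝ)) ∘L
    ((-2 : ℝ) • iflSftI n)

theorem ifl_amp_T_apply (η v : E n) : iflAmpT n η v = (0, -2 * ⟪η, v⟫_ℝ) := by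
  simp only [iflAmpT, iflSftI, ContinuousLinearMap.comp_apply, ContinuousLinearMap.compL_apply,
    _root_.smul_apply, ContinuousLinearMap.inr_apply, smul_eq_mul]
  rfl

theorem ifl_amp_T_norm_le (η : E n) : ‖iflAmpT n η‖ ≤ 2 * ‖η‖ := by
  apply ContinuousLinearMap.opNorm_le_bound _ (by positivity)
  intro v
  rw [ifl_amp_T_apply, Prod.norm_def, norm_zero, max_eq_right (norm_nonneg _), Real.norm_eq_abs,
    abs_mul]
  have := abs_real_inner_le_norm η v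
  norm_num
  nlinarith

theorem ifl_amp_T_norm : ‖iflAmpT n‖ ≤ 2 :=
  ContinuousLinearMap.opNorm_le_bound _ (by norm_num) ifl_amp_T_norm_le

theorem ifl_amp_S_smooth (c : ℝ) : ContDiff ℝ ∞ (iflAmpS n c) :=
  contDiff_id.prodMk (contDiff_const.sub (contDiff_norm_sq ℝ))

theorem ifl_amp_S_fderiv (c : ℝ) (η : E n) :
    fderiv ℝ (iflAmpS n c) η = ContinuousLinearMap.inl ℝ (E n) ℝ + iflAmpT n η := by
  have h := (hasFDerivAt_id η).prodMk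
    ((hasFDerivAt_const c η).sub (hasStrictFDerivAt_norm_sq η).hasFDerivAt)
  have h' : HasFDerivAt (iflAmpS n c) _ η := h
  rw [h'.fderiv]
  ext v
  · simp [ifl_amp_T_apply]
  · simp [ifl_amp_T_apply]

theorem ifl_amp_S_bd (c : ℝ) (η : E n) (i : ℕ) (hi : 1 ≤ i) :
    ‖iteratedFDeriv ℝ i (iflAmpS n c) η‖ ≤ 3 + 2 * ‖η‖ := by
  obtain ⟨m, rfl⟩ : ∃ m, i = m + 1 := ⟨i - 1, by omega⟩
  rw [← norm_iteratedFDeriv_fderiv]
  have e : fderiv ℝ (iflAmpS n c) =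
      fun η => ContinuousLinearMap.inl ℝ (E n) ℝ + iflAmpT n η := funext (ifl_amp_S_fderiv c)
  rw [e]
  have hcb := (R255.pk_cb_const (Ω := ball (0 : E n) (‖η‖ + 1))
    (ContinuousLinearMap.inl ℝ (E n) ℝ)).add isOpen_ball
    (R255.pk_cb_clm (Ω := ball (0 : E n) (‖η‖ + 1)) (iflAmpT n) (ρ := 2 * (‖η‖ + 1)) (by
      intro x hx
      rw [mem_ball_zero_iff] at hx
      exact (ifl_amp_T_norm_le x).trans (by linarith)))
  have h := hcb.bd m η (by rw [mem_ball_zero_iff]; linarith)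
  refine h.trans ?_
  have h1 := ContinuousLinearMap.norm_inl_le_one ℝ (E n) ℝ
  have h2 := ifl_amp_T_norm (n := n)
  have h3 := norm_nonneg η
  split_ifs <;> linarith

theorem ifl_amp_comp_bd {Φ : ST n → ℂ} (hΦ : ContDiff ℝ ∞ Φ) (c : ℝ) (η : E n) (j : ℕ) (Cg : ℝ)
    (hC : ∀ i, i ≤ j → ‖iteratedFDeriv ℝ i Φ (iflAmpS n c η)‖ ≤ Cg) :
    ‖iteratedFDeriv ℝ j (Φ ∘ iflAmpS n c) η‖ ≤ (Nat.factorial j : ℝ) * Cg * (3 + 2 * ‖η‖) ^ j :=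
  norm_iteratedFDeriv_comp_le hΦ (ifl_amp_S_smooth c) (by exact_mod_cast le_top) η hC
    (fun i hi1 _ => (ifl_amp_S_bd c η i hi1).trans
      (le_self_pow₀ (by linarith [norm_nonneg η]) (by omega)))

theorem ifl_amp_lower (P : ℝ) (hP : 0 < P) (k θ : E n) (l : ℤ) (hθ : ‖θ‖ ≤ Real.sqrt n) :
    1 + (‖k‖ + |(l : ℝ)|) ≤
      (1 + Real.sqrt n + P) * (1 + ‖iflAmpS n (2 * π * l / P) (k + θ)‖) ^ 2 := by
  set c : ℝ := 2 * π * l / P with hc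
  set η := k + θ with hη
  set s := ‖iflAmpS n c η‖ with hs
  have h1 : ‖η‖ ≤ s := le_max_left _ _
  have h2 : |c - ‖η‖ ^ 2| ≤ s := le_max_right _ _
  have hs0 : 0 ≤ s := norm_nonneg _
  have hk : ‖k‖ ≤ ‖η‖ + ‖θ‖ := by
    have : k = η - θ := by rw [hη]; abel
    rw [this]
    exact norm_sub_le _ _
  have hcabs : |c| ≤ s + s ^ 2 := by
    have : c = (c - ‖η‖ ^ 2) + ‖η‖ ^ 2 := by ring
    calc |c| = |(c - ‖η‖ ^ 2) + ‖η‖ ^ 2| := by rw [← this]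
      _ ≤ |c - ‖η‖ ^ 2| + |‖η‖ ^ 2| := abs_add_le _ _
      _ ≤ s + s ^ 2 := by
        rw [abs_of_nonneg (by positivity : (0:ℝ) ≤ ‖η‖ ^ 2)]
        exact add_le_add h2 (pow_le_pow_left₀ (norm_nonneg _) h1 2)
  have hl : |(l : ℝ)| ≤ P * |c| := by
    have hpi : 0 < 2 * π := by positivity
    have : |c| = 2 * π * |(l : ℝ)| / P := by
      rw [hc, abs_div, abs_mul, abs_of_pos hpi, abs_of_pos hP]
    rw [this]
    have e : P * (2 * π * |(l : ℝ)| / P) = 2 * π * |(l : ℝ)| := by field_simp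
    rw [e]
    have : (1 : ℝ) ≤ 2 * π := by linarith [Real.pi_gt_three]
    nlinarith [abs_nonneg (l : ℝ)]
  have hl2 : |(l : ℝ)| ≤ P * (s + s ^ 2) := hl.trans (mul_le_mul_of_nonneg_left hcabs hP.le)
  have hn0 : 0 ≤ Real.sqrt n := Real.sqrt_nonneg _
  nlinarith [mul_nonneg hn0 hs0, mul_nonneg hP.le hs0, mul_nonneg hn0 (sq_nonneg s), sq_nonneg s]

/-- the constant of `ifl_amp_core` -/
noncomputable def iflAmpK (n A' Nd : ℕ) (P : ℝ) (Λ : ℕ → ℝ) : ℝ :=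
  (Nat.factorial Nd : ℝ) * ((∑ i ∈ Finset.range (Nd + 1), Λ i) *
    (1 + Real.sqrt n + P) ^ (A' + Nd)) * (3 + 2 * Real.sqrt n) ^ Nd

theorem ifl_amp_K_nonneg (n A' Nd : ℕ) (P : ℝ) (hP : 0 < P) (Λ : ℕ → ℝ) (hΛ0 : ∀ i, 0 ≤ Λ i) :
    0 ≤ iflAmpK n A' Nd P Λ := by
  unfold iflAmpK
  have : 0 ≤ ∑ i ∈ Finset.range (Nd + 1), Λ i := Finset.sum_nonneg fun i _ => hΛ0 i
  positivity

theorem ifl_amp_core (A' Nd : ℕ) (P : ℝ) (hP : 0 < P) (Λ : ℕ → ℝ) (hΛ0 : ∀ i, 0 ≤ Λ i)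
    (Φ : ST n → ℂ) (hΦs : ContDiff ℝ ∞ Φ)
    (hΦb : ∀ (i : ℕ) (w : ST n),
      ‖iteratedFDeriv ℝ i Φ w‖ ≤ Λ i * (1 + ‖w‖) ^ (-((2 * (A' + Nd) : ℕ) : ℤ)))
    (k θ : E n) (l : ℤ) (hθ : ‖θ‖ ≤ Real.sqrt n) (j : ℕ) (hj : j ≤ Nd) :
    ‖iteratedFDeriv ℝ j (Φ ∘ iflAmpS n (2 * π * l / P)) (k + θ)‖ ≤
      iflAmpK n A' Nd P Λ * (1 + (‖k‖ + |(l : ℝ)|)) ^ (-(A' : ℤ)) := by
  set c : ℝ := 2 * π * l / P with hc
  set η := k + θ with hη
  set s := ‖iflAmpS n c η‖ with hs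
  set T : ℝ := 1 + (‖k‖ + |(l : ℝ)|) with hT
  set C₁ : ℝ := 1 + Real.sqrt n + P with hC₁
  set M := A' + Nd with hM
  set ΛS := ∑ i ∈ Finset.range (Nd + 1), Λ i with hΛS
  have hn0 : 0 ≤ Real.sqrt n := Real.sqrt_nonneg _
  have hs0 : 0 ≤ s := norm_nonneg _
  have hT1 : 1 ≤ T := by
    have := norm_nonneg k
    have := abs_nonneg (l : ℝ)
    linarith
  have hT0 : 0 < T := by linarith
  have hC₁0 : 0 < C₁ := by positivity
  have hΛS0 : 0 ≤ ΛS := Finset.sum_nonneg fun i _ => hΛ0 i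
  have hlow : T ≤ C₁ * (1 + s) ^ 2 := ifl_amp_lower P hP k θ l hθ
  -- decay factor
  have hdec : (1 + s) ^ (-((2 * M : ℕ) : ℤ)) ≤ C₁ ^ M * (T ^ M)⁻¹ := by
    rw [zpow_neg, zpow_natCast, pow_mul]
    have h1 : T ^ M ≤ C₁ ^ M * ((1 + s) ^ 2) ^ M := by
      rw [← mul_pow]
      exact pow_le_pow_left₀ hT0.le hlow M
    have h2 : 0 < ((1 + s) ^ 2) ^ M := by positivity
    have h3 : 0 < T ^ M := by positivity
    rw [inv_le_comm₀ h2 (by positivity), mul_inv, inv_inv]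
    rw [← div_eq_inv_mul, div_le_iff₀ (by positivity)]
    linarith
  have hC : ∀ i, i ≤ j → ‖iteratedFDeriv ℝ i Φ (iflAmpS n c η)‖ ≤ ΛS * (C₁ ^ M * (T ^ M)⁻¹) := by
    intro i hi
    refine (hΦb i _).trans ?_
    have h1 : Λ i ≤ ΛS := Finset.single_le_sum (f := Λ) (fun q _ => hΛ0 q)
      (Finset.mem_range.2 (by omega))
    exact mul_le_mul h1 hdec (by positivity) hΛS0
  refine (ifl_amp_comp_bd hΦs c η j _ hC).trans ?_
  have hη' : ‖η‖ ≤ ‖k‖ + Real.sqrt n := (norm_add_le _ _).trans (by linarith)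
  have hD : 3 + 2 * ‖η‖ ≤ (3 + 2 * Real.sqrt n) * T := by
    have := norm_nonneg k
    have := abs_nonneg (l : ℝ)
    rw [hT]
    nlinarith [mul_nonneg hn0 (norm_nonneg k), mul_nonneg hn0 (abs_nonneg (l : ℝ))]
  have hD1 : 1 ≤ (3 + 2 * Real.sqrt n) * T := by nlinarith
  have hDj : (3 + 2 * ‖η‖) ^ j ≤ (3 + 2 * Real.sqrt n) ^ Nd * T ^ Nd := by
    calc (3 + 2 * ‖η‖) ^ j ≤ ((3 + 2 * Real.sqrt n) * T) ^ j :=
          pow_le_pow_left₀ (by positivity) hD j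
      _ ≤ ((3 + 2 * Real.sqrt n) * T) ^ Nd := pow_le_pow_right₀ hD1 hj
      _ = _ := mul_pow _ _ _
  have hfac : (Nat.factorial j : ℝ) ≤ (Nat.factorial Nd : ℝ) := by
    exact_mod_cast Nat.factorial_le hj
  have hCg0 : 0 ≤ ΛS * (C₁ ^ M * (T ^ M)⁻¹) := by positivity
  calc (Nat.factorial j : ℝ) * (ΛS * (C₁ ^ M * (T ^ M)⁻¹)) * (3 + 2 * ‖η‖) ^ j
      ≤ (Nat.factorial Nd : ℝ) * (ΛS * (C₁ ^ M * (T ^ M)⁻¹)) *
          ((3 + 2 * Real.sqrt n) ^ Nd * T ^ Nd) := by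
        apply mul_le_mul (mul_le_mul_of_nonneg_right hfac hCg0) hDj (by positivity) (by positivity)
    _ = iflAmpK n A' Nd P Λ * T ^ (-(A' : ℤ)) := by
        unfold iflAmpK
        rw [zpow_neg, zpow_natCast, hM, pow_add T A' Nd]
        field_simp
        rfl

theorem ifl_amp_win_tsupp : tsupport (iflWin : E n → ℝ) ⊆ closedBall 0 (Real.sqrt n) := by
  apply closure_minimal _ isClosed_closedBall
  intro θ hθ
  rw [mem_closedBall_zero_iff]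
  exact ifl_win_supp_norm θ hθ

theorem ifl_amp_winC_smooth : ContDiff ℝ ∞ (fun θ : E n => ((iflWin θ : ℝ) : ℂ)) :=
  Complex.ofRealCLM.contDiff.comp ifl_win_smooth

theorem ifl_amp_winC_norm (i : ℕ) (θ : E n) :
    ‖iteratedFDeriv ℝ i (fun θ : E n => ((iflWin θ : ℝ) : ℂ)) θ‖ =
      ‖iteratedFDeriv ℝ i (iflWin : E n → ℝ) θ‖ :=
  Complex.ofRealLI.norm_iteratedFDeriv_comp_left (n := ∞) (ifl_win_smooth.contDiffAt)
    (by exact_mod_cast le_top)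

theorem ifl_amp_winC_zero (i : ℕ) (θ : E n) (hθ : Real.sqrt n < ‖θ‖) :
    ‖iteratedFDeriv ℝ i (fun θ : E n => ((iflWin θ : ℝ) : ℂ)) θ‖ = 0 := by
  rw [ifl_amp_winC_norm, norm_eq_zero]
  by_contra hne
  have := ifl_amp_win_tsupp (support_iteratedFDeriv_subset i hne)
  rw [mem_closedBall_zero_iff] at this
  linarith

theorem ifl_amp_A_eq (P : ℝ) (φ : ST n → ℂ) (κ : (Fin n → ℤ) × ℤ) :
    iflA P φ κ = fun θ => ((iflWin θ : ℝ) : ℂ) *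
      (((P⁻¹ : ℝ) : ℂ) • (fun θ => (iflSft φ ∘ iflAmpS n (2 * π * κ.2 / P)) (iflLat κ.1 + θ))) θ := by
  funext θ
  rfl

/-- **L-IFL-AMP** -/
theorem ifl_amp_bound (n A' Nd : ℕ) (R B P : ℝ) (hP : 0 < P) :
    ∃ (J : ℕ) (C : ℝ), 0 ≤ C ∧ ∀ φ : ST n → ℂ, Prof J R B φ → ∀ κ : (Fin n → ℤ) × ℤ,
      IflAmp Nd (Real.sqrt n) (C * (1 + iflKn κ) ^ (-(A' : ℤ))) (iflA P φ κ) := by
  obtain ⟨Λ, hΛ0, hΛ⟩ := ifl_sft_bound n (2 * (A' + Nd)) R B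
  obtain ⟨Λρ, hΛρ⟩ := ifl_win_cb n
  have hΛρ0 : ∀ i, 0 ≤ Λρ i := fun i => (norm_nonneg _).trans (hΛρ i 0)
  set ΛR := ∑ i ∈ Finset.range (Nd + 1), Λρ i with hΛR
  have hΛR0 : 0 ≤ ΛR := Finset.sum_nonneg fun i _ => hΛρ0 i
  have hK0 := ifl_amp_K_nonneg n A' Nd P hP Λ hΛ0
  refine ⟨2 * (A' + Nd), 2 ^ Nd * (ΛR * (P⁻¹ * iflAmpK n A' Nd P Λ)), by positivity, ?_⟩
  intro φ hφ κ
  obtain ⟨hΦs, hΦb⟩ := hΛ φ hφ
  set c : ℝ := 2 * π * κ.2 / P with hc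
  set k := iflLat κ.1 with hk
  set Ψ : E n → ℂ := iflSft φ ∘ iflAmpS n c with hΨ
  have hΨs : ContDiff ℝ ∞ Ψ := hΦs.comp (ifl_amp_S_smooth c)
  set g : E n → ℂ := ((P⁻¹ : ℝ) : ℂ) • (fun θ => Ψ (k + θ)) with hg
  have hsh : ContDiff ℝ ∞ (fun θ => Ψ (k + θ)) := hΨs.comp (contDiff_const.add contDiff_id)
  have hgs : ContDiff ℝ ∞ g := hsh.const_smul (((P⁻¹ : ℝ) : ℂ))
  have hA : iflA P φ κ = fun θ => ((iflWin θ : ℝ) : ℂ) * g θ := ifl_amp_A_eq P φ κ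
  set T : ℝ := 1 + iflKn κ with hT
  have hT0 : 0 < T := by
    have : 0 ≤ iflKn κ := by unfold iflKn; positivity
    linarith
  have hTz : 0 ≤ T ^ (-(A' : ℤ)) := by positivity
  have hm : ∀ m : ℕ, ((m : ℕ) : WithTop ℕ∞) ≤ ((⊤ : ℕ∞) : WithTop ℕ∞) := fun m => by
    exact_mod_cast le_top
  refine ⟨?_, ?_, ?_⟩
  · rw [hA]
    exact ifl_amp_winC_smooth.mul hgs
  · intro θ hθ
    apply ifl_win_supp_norm
    intro h0
    apply hθ
    rw [hA]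
    simp [h0]
  · intro j hj θ
    rw [hA]
    refine (norm_iteratedFDeriv_mul_le ifl_amp_winC_smooth hgs θ (n := j)
      (by exact_mod_cast le_top)).trans ?_
    have hterm : ∀ i ∈ Finset.range (j + 1),
        (j.choose i : ℝ) * ‖iteratedFDeriv ℝ i (fun θ : E n => ((iflWin θ : ℝ) : ℂ)) θ‖ *
          ‖iteratedFDeriv ℝ (j - i) g θ‖ ≤
        (j.choose i : ℝ) * (ΛR * (P⁻¹ * iflAmpK n A' Nd P Λ) * T ^ (-(A' : ℤ))) := by
      intro i hi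
      rw [Finset.mem_range] at hi
      rw [mul_assoc]
      apply mul_le_mul_of_nonneg_left _ (Nat.cast_nonneg _)
      rcases lt_or_ge (Real.sqrt n) ‖θ‖ with hθ | hθ
      · rw [ifl_amp_winC_zero i θ hθ, zero_mul]
        positivity
      · have h1 : ‖iteratedFDeriv ℝ i (fun θ : E n => ((iflWin θ : ℝ) : ℂ)) θ‖ ≤ ΛR := by
          rw [ifl_amp_winC_norm]
          exact (hΛρ i θ).trans (Finset.single_le_sum (f := Λρ) (fun q _ => hΛρ0 q)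
            (Finset.mem_range.2 (by omega)))
        have h2 : ‖iteratedFDeriv ℝ (j - i) g θ‖ ≤
            P⁻¹ * iflAmpK n A' Nd P Λ * T ^ (-(A' : ℤ)) := by
          rw [hg, iteratedFDeriv_const_smul_apply
            (hsh.contDiffAt.of_le (hm (j - i))), norm_smul,
            iteratedFDeriv_comp_add_left, Complex.norm_real, Real.norm_eq_abs,
            abs_of_pos (inv_pos.2 hP), mul_assoc]
          apply mul_le_mul_of_nonneg_left _ (inv_pos.2 hP).le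
          exact ifl_amp_core A' Nd P hP Λ hΛ0 (iflSft φ) hΦs hΦb k θ κ.2 hθ (j - i) (by omega)
        calc _ ≤ ΛR * (P⁻¹ * iflAmpK n A' Nd P Λ * T ^ (-(A' : ℤ))) :=
              mul_le_mul h1 h2 (norm_nonneg _) hΛR0
          _ = _ := by ring
    refine (Finset.sum_le_sum hterm).trans ?_
    rw [← Finset.sum_mul]
    have hsum : (∑ i ∈ Finset.range (j + 1), (j.choose i : ℝ)) = 2 ^ j := by
      exact_mod_cast Nat.sum_range_choose j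
    rw [hsum]
    have h2 : (2 : ℝ) ^ j ≤ 2 ^ Nd := pow_le_pow_right₀ (by norm_num) hj
    calc (2 : ℝ) ^ j * (ΛR * (P⁻¹ * iflAmpK n A' Nd P Λ) * T ^ (-(A' : ℤ)))
        ≤ 2 ^ Nd * (ΛR * (P⁻¹ * iflAmpK n A' Nd P Λ) * T ^ (-(A' : ℤ))) :=
          mul_le_mul_of_nonneg_right h2 (by positivity)
      _ = _ := by ring

end Claimed.Agent.R257
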