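import Claimed.Agent.R257.Infra.Lay.Defs

/-!
# R257 / Infra / Lay / Coef : LEAF L-IFL-COEF: `b_l(η)` is the `l`-th Fourier coefficient of `ψ_η(σ) = iflFt (φ(·,σ)) η · e(σ|η|²)`.      (architect helper245)   ~200 l., Mathlib only.

PLAN.  `φ` continuous with compact support (in `closedBall 0 R` of `E n × ℝ`), so `(ζ,σ) ↦ e(..) φ(ζ,σ)` is integrable for the product measure (`volume` on `E n × ℝ` is `volume.prod volume`: `Measure.volume_eq_prod`);
 `integral_prod_symm` / `integral_prod` + `integral_integral_swap`;   `e(-(⟪ζ,η⟫ + σ(2πl/P - ‖η‖²))) = e(-2πlσ/P) e(σ‖η‖²) e(-⟪ζ,η⟫)` (`Complex.exp_add`).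
 continuity of `ψ_η`: `continuous_parametric_integral_of_continuous` on the compact set `closedBall 0 R`, or dominated convergence (`continuous_of_dominated`, bound `B 1_{closedBall 0 R}`).    support: `φ(ζ,σ) = 0` for `|σ| > R` (`Prod.norm_def`).
-/

set_option autoImplicit false

namespace Claimed.Agent.R257

open MeasureTheory Metric Set
open scoped ENNReal ContDiff InnerProductSpace Real

variable {n : ℕ}

/-- the function `ψ_η` -/
noncomputable def iflPsi (φ : ST n → ℂ) (η : E n) (σ : ℝ) : ℂ := iflFt (fun ζ => φ (ζ, σ)) η * iflE (σ * ‖η‖ ^ 2)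

theorem ifl_coef_E_add (s t : ℝ) : iflE (s + t) = iflE s * iflE t := by
  unfold iflE
  rw [← Complex.exp_add, ← mul_add, Complex.ofReal_add]

theorem ifl_coef_E_cont : Continuous iflE := by
  unfold iflE
  fun_prop

theorem ifl_coef_cs {R B : ℝ} {φ : ST n → ℂ} (hφ : Prof 0 R B φ) : HasCompactSupport φ :=
  HasCompactSupport.intro (isCompact_closedBall (0 : ST n) R) fun z hz => by
    by_contra h
    exact hz (mem_closedBall_zero_iff.2 (hφ.supp z h))

/-- **L-IFL-COEF** -/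
theorem ifl_coef {R B : ℝ} {φ : ST n → ℂ} (hφ : Prof 0 R B φ) (P : ℝ) (l : ℤ) (η : E n) :
    iflB P φ l η = ((P⁻¹ : ℝ) : ℂ) * ∫ σ, iflE (-(2 * π * l * σ / P)) * iflPsi φ η σ := by
  unfold iflB iflSft
  congr 1
  have hc : Continuous fun v : ST n => iflE (-(⟪v.1, η⟫_ℝ + v.2 * (2 * π * l / P - ‖η‖ ^ 2))) * φ v :=
    (ifl_coef_E_cont.comp (by fun_prop)).mul hφ.smooth.continuous
  have hi : Integrable (fun v : ST n => iflE (-(⟪v.1, η⟫_ℝ + v.2 * (2 * π * l / P - ‖η‖ ^ 2))) * φ v)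
      ((volume : Measure (E n)).prod (volume : Measure ℝ)) := by
    rw [← Measure.volume_eq_prod]
    exact hc.integrable_of_hasCompactSupport (ifl_coef_cs hφ).mul_left
  rw [Measure.volume_eq_prod, integral_prod_symm _ hi]
  refine integral_congr_ae (Filter.Eventually.of_forall fun σ => ?_)
  simp only [iflPsi, iflFt]
  rw [← integral_mul_const, ← integral_const_mul]
  refine integral_congr_ae (Filter.Eventually.of_forall fun ζ => ?_)
  simp only
  have e : -(⟪ζ, η⟫_ℝ + σ * (2 * π * l / P - ‖η‖ ^ 2))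
      = -(2 * π * l * σ / P) + (-⟪ζ, η⟫_ℝ + σ * ‖η‖ ^ 2) := by ring
  rw [e, ifl_coef_E_add, ifl_coef_E_add]
  ring

/-- **L-IFL-COEF** -/
theorem ifl_psi_continuous {R B : ℝ} {φ : ST n → ℂ} (hφ : Prof 0 R B φ) (η : E n) : Continuous (iflPsi φ η) := by
  unfold iflPsi iflFt
  refine Continuous.mul ?_ (ifl_coef_E_cont.comp (by fun_prop))
  have h1 : ∀ σ : ℝ, ∫ ζ, iflE (-⟪ζ, η⟫_ℝ) * φ (ζ, σ)
      = ∫ ζ in closedBall (0 : E n) R, iflE (-⟪ζ, η⟫_ℝ) * φ (ζ, σ) := by
    intro σ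
    refine (setIntegral_eq_integral_of_forall_compl_eq_zero fun ζ hζ => ?_).symm
    have h2 : φ (ζ, σ) = 0 := by
      by_contra h
      apply hζ
      rw [mem_closedBall_zero_iff]
      exact (norm_fst_le (ζ, σ)).trans (hφ.supp _ h)
    rw [h2, mul_zero]
  simp only [h1]
  refine continuous_parametric_integral_of_continuous
    (f := fun (σ : ℝ) (ζ : E n) => iflE (-⟪ζ, η⟫_ℝ) * φ (ζ, σ)) ?_ (isCompact_closedBall _ _)
  exact (ifl_coef_E_cont.comp (by fun_prop)).mul (hφ.smooth.continuous.comp (by fun_prop))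

/-- **L-IFL-COEF** -/
theorem ifl_psi_supp {R B : ℝ} {φ : ST n → ℂ} (hφ : Prof 0 R B φ) (η : E n) (σ : ℝ) (h : iflPsi φ η σ ≠ 0) : |σ| ≤ R := by
  by_contra hσ
  apply h
  have h2 : ∀ ζ : E n, φ (ζ, σ) = 0 := by
    intro ζ
    by_contra h3
    apply hσ
    exact (Real.norm_eq_abs σ ▸ norm_snd_le (ζ, σ)).trans (hφ.supp _ h3)
  simp [iflPsi, iflFt, h2]

end Claimed.Agent.R257
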