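import Claimed.Agent.R257.Infra.Lay.Defs

/-!
# R257 / Infra / Lay / FS : LEAF L-IFL-FS: pointwise Fourier series of a continuous function supported inside one period.      (architect helper245)   ~250 l., Mathlib only.

PLAN.  `T = P`, `a = -P/2`, `[Fact (0 < P)]`.   `f : C(AddCircle P, ℂ)` := `AddCircle.liftIco P (-P/2) ψ` (continuous: `AddCircle.liftIco_continuous`, `ψ(-P/2) = ψ(P/2) = 0`).
 `fourierCoeff f l = fourierCoeffOn .. ψ l = P⁻¹ ∫_{-P/2}^{P/2} e(-2πlσ/P) ψ σ dσ` (`fourierCoeff_liftIco_eq`, `fourierCoeffOn_eq_integral`, `fourier_coe_apply`) `= c l` (the integrand vanishes off the interval: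
 `intervalIntegral.integral_of_le`, `setIntegral_eq_integral_of_forall_compl_eq_zero`).    `has_pointwise_sum_fourier_series_of_summable` at the point `(σ : AddCircle P)`; `liftIco_coe_apply` for `σ ∈ Ico`; the endpoint `σ = P/2` is the same point of the circle as `-P/2`
 and `e(2πl(P/2)/P) = e(2πl(-P/2)/P)`, `ψ (P/2) = ψ(-P/2) = 0`.
-/

set_option autoImplicit false

namespace Claimed.Agent.R257

open MeasureTheory Metric Set
open scoped ENNReal ContDiff InnerProductSpace Real

variable {n : ℕ}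

/-- the Fourier coefficient of the lift. -/
theorem ifl_fs_coeff {P : ℝ} [hPf : Fact (0 < P)] {ψ : ℝ → ℂ} (hs : ∀ σ, ψ σ ≠ 0 → |σ| < P / 2) (l : ℤ) :
    fourierCoeff (AddCircle.liftIco P (-P / 2) ψ) l
      = ((P⁻¹ : ℝ) : ℂ) * ∫ σ, iflE (-(2 * π * l * σ / P)) * ψ σ := by
  have hP : 0 < P := hPf.out
  rw [fourierCoeff_eq_intervalIntegral _ _ (-P / 2)]
  have h1 : ∫ x in (-P / 2)..(-P / 2 + P), @fourier P (-l) x • AddCircle.liftIco P (-P / 2) ψ x
      = ∫ x in (-P / 2)..(-P / 2 + P), iflE (-(2 * π * l * x / P)) * ψ x := by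
    refine intervalIntegral.integral_congr_Ioo_of_le (by linarith) fun x hx => ?_
    rw [AddCircle.liftIco_coe_apply (Ioo_subset_Ico_self hx), fourier_coe_apply, smul_eq_mul, iflE]
    congr 2
    push_cast
    ring
  rw [h1, intervalIntegral.integral_of_le (by linarith),
    setIntegral_eq_integral_of_forall_compl_eq_zero]
  · rw [Complex.real_smul]
    congr 2
    rw [one_div]
  · intro x hx
    have : ψ x = 0 := by
      by_contra hne
      have := hs x hne
      rw [abs_lt] at this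
      exact hx ⟨by linarith [this.1], by linarith [this.2]⟩
    rw [this, mul_zero]

/-- **L-IFL-FS** -/
theorem ifl_fs {P : ℝ} (hP : 0 < P) {ψ : ℝ → ℂ} (hc : Continuous ψ) (hs : ∀ σ, ψ σ ≠ 0 → |σ| < P / 2)
    (hsum : Summable fun l : ℤ => ‖((P⁻¹ : ℝ) : ℂ) * ∫ σ, iflE (-(2 * π * l * σ / P)) * ψ σ‖) (σ : ℝ) (hσ : |σ| ≤ P / 2) :
    HasSum (fun l : ℤ => (((P⁻¹ : ℝ) : ℂ) * ∫ σ', iflE (-(2 * π * l * σ' / P)) * ψ σ') * iflE (2 * π * l * σ / P)) (ψ σ) := by
  have : Fact (0 < P) := ⟨hP⟩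
  have hz : ∀ x : ℝ, P / 2 ≤ |x| → ψ x = 0 := by
    intro x hx
    by_contra hne
    exact absurd (hs x hne) (not_lt.mpr hx)
  have hm : ψ (-P / 2) = 0 := hz _ (by rw [neg_div, abs_neg, abs_of_pos (by positivity)])
  have hp : ψ (P / 2) = 0 := hz _ (by rw [abs_of_pos (by positivity)])
  have hp' : ψ (-P / 2 + P) = 0 := by
    have : -P / 2 + P = P / 2 := by ring
    rw [this, hp]
  have hcont : Continuous (AddCircle.liftIco P (-P / 2) ψ) :=
    AddCircle.liftIco_continuous (by rw [hm, hp']) hc.continuousOn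
  set f : C(AddCircle P, ℂ) := ⟨AddCircle.liftIco P (-P / 2) ψ, hcont⟩ with hf
  have hco : ∀ l : ℤ, fourierCoeff f l = ((P⁻¹ : ℝ) : ℂ) * ∫ σ, iflE (-(2 * π * l * σ / P)) * ψ σ :=
    fun l => ifl_fs_coeff hs l
  have hS : Summable (fourierCoeff f) := by
    refine Summable.of_norm ?_
    simp_rw [hco]
    exact hsum
  have key := has_pointwise_sum_fourier_series_of_summable hS (σ : AddCircle P)
  have hval : f (σ : AddCircle P) = ψ σ := by
    rw [abs_le] at hσ
    rcases eq_or_lt_of_le hσ.2 with he | hlt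
    · have h2 : ((σ : ℝ) : AddCircle P) = ((-P / 2 : ℝ) : AddCircle P) := by
        rw [he]
        have : (P / 2 : ℝ) = -P / 2 + P := by ring
        rw [this, AddCircle.coe_add, AddCircle.coe_period, add_zero]
      rw [h2]
      show AddCircle.liftIco P (-P / 2) ψ _ = _
      rw [AddCircle.liftIco_coe_apply ⟨le_refl _, by linarith⟩, hm, he, hp]
    · show AddCircle.liftIco P (-P / 2) ψ _ = _
      rw [AddCircle.liftIco_coe_apply ⟨by linarith [hσ.1], by linarith⟩]
  rw [hval] at key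
  convert key using 2 with l
  rw [hco, fourier_coe_apply, smul_eq_mul, iflE]
  congr 2
  push_cast
  ring

end Claimed.Agent.R257
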