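import Claimed.Agent.R257.Infra.Lay.Defs

/-!
# R257 / Infra / Lay / Inv : LEAF L-IFL-INV: Fourier inversion on `E n` for smooth compactly supported functions, paper normalisation.      (architect helper245)   ~200 l., Mathlib only.

PLAN.  `iflFt f η = 𝓕 f ((2π)⁻¹ • η)`.   `f` is a Schwartz function (`HasCompactSupport.toSchwartzMap` / `ContDiff` + compact support), so `𝓕 f` is Schwartz, hence integrable and continuous; inversion
 `Continuous.fourierInv_fourier_eq` (or the Schwartz version): `f ζ = ∫ e^{2πi⟪v,ζ⟫} 𝓕 f v dv`.   Substitute `v = (2π)⁻¹ • η` (`Measure.integral_comp_smul`: factor `(2π)^{-n}`, `finrank_euclideanSpace_fin`).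
-/

set_option autoImplicit false

namespace Claimed.Agent.R257

open MeasureTheory Metric Set
open scoped ENNReal ContDiff InnerProductSpace Real
open scoped FourierTransform

variable {n : ℕ}

theorem ifl_inv_ft_eq (f : E n → ℂ) (η : E n) : iflFt f η = 𝓕 f ((2 * π)⁻¹ • η) := by
  rw [Real.fourier_eq']
  unfold iflFt iflE
  refine integral_congr_ae (Filter.Eventually.of_forall fun ζ => ?_)
  simp only [smul_eq_mul]
  congr 2
  rw [inner_smul_right]
  have hπ : (π : ℂ) ≠ 0 := by exact_mod_cast Real.pi_ne_zero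
  push_cast
  field_simp

/-- **L-IFL-INV** -/
theorem ifl_inv {f : E n → ℂ} (hf : ContDiff ℝ ∞ f) (hc : HasCompactSupport f) :
    Integrable (iflFt f) ∧ Continuous (iflFt f) ∧
      ∀ ζ, f ζ = ((((2 * π) ^ n)⁻¹ : ℝ) : ℂ) * ∫ η, iflFt f η * iflE ⟪ζ, η⟫_ℝ := by
  have h2π : (0 : ℝ) < 2 * π := by positivity
  set g : SchwartzMap (E n) ℂ := hc.toSchwartzMap hf with hg
  have hgf : (g : E n → ℂ) = f := rfl
  have hF : (𝓕 g : SchwartzMap (E n) ℂ) = (𝓕 f : E n → ℂ) := by
    rw [SchwartzMap.fourier_coe, hgf]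
  have hFi : Integrable (𝓕 f : E n → ℂ) := by
    rw [← hF]
    exact (𝓕 g : SchwartzMap (E n) ℂ).integrable
  have hFc : Continuous (𝓕 f : E n → ℂ) := by
    rw [← hF]
    exact (𝓕 g : SchwartzMap (E n) ℂ).continuous
  have e : iflFt f = fun η => (𝓕 f : E n → ℂ) ((2 * π)⁻¹ • η) := funext (ifl_inv_ft_eq f)
  refine ⟨?_, ?_, fun ζ => ?_⟩
  · rw [e]
    exact hFi.comp_smul (inv_ne_zero h2π.ne')
  · rw [e]
    exact hFc.comp (continuous_const_smul _)
  · have hinv := congrFun (hf.continuous.fourierInv_fourier_eq (hf.continuous.integrable_of_hasCompactSupport hc) hFi) ζ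
    rw [Real.fourierInv_eq'] at hinv
    have hsub := Measure.integral_comp_smul (volume : Measure (E n))
      (fun v => Complex.exp ((↑(2 * π * ⟪v, ζ⟫_ℝ) * Complex.I)) • (𝓕 f : E n → ℂ) v) (2 * π)⁻¹
    rw [finrank_euclideanSpace_fin, inv_pow, inv_inv, abs_of_pos (by positivity)] at hsub
    rw [← hinv]
    have h3 : ∫ η, iflFt f η * iflE ⟪ζ, η⟫_ℝ
        = ∫ η : E n, Complex.exp ((↑(2 * π * ⟪(2 * π)⁻¹ • η, ζ⟫_ℝ) * Complex.I)) • (𝓕 f : E n → ℂ) ((2 * π)⁻¹ • η) := by
      refine integral_congr_ae (Filter.Eventually.of_forall fun η => ?_)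
      simp only [smul_eq_mul]
      rw [ifl_inv_ft_eq, mul_comm]
      congr 1
      unfold iflE
      congr 1
      rw [inner_smul_left, real_inner_comm]
      have hπ : (π : ℂ) ≠ 0 := by exact_mod_cast Real.pi_ne_zero
      simp only [conj_trivial]
      push_cast
      field_simp
    rw [h3, hsub, Complex.real_smul, ← mul_assoc, ← Complex.ofReal_mul, inv_mul_cancel₀ (by positivity), Complex.ofReal_one,
      one_mul]

end Claimed.Agent.R257
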