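import Claimed.Agent.R257.Infra.Lay.Count

/-!
# R257 / Infra / Lay / Summ : LEAF L-IFL-SUMM: summability of `(1 + |k| + |l|)^(-M)` over `ℤⁿ × ℤ`, with tails.      (architect helper245)   ~200 l.

PLAN.  `V = E n × ℝ` (`finrank = n + 1`: `Module.finrank_prod`, `finrank_euclideanSpace_fin`), points `x κ = (iflLat κ.1, κ.2)`, `‖x κ‖ = max ≤ iflKn κ ≤ 2‖x κ‖`.
 Multiplicity: the `κ` with `x κ ∈ closedBall q 1` have every coordinate in an interval of length `2` (`|v i| ≤ ‖v‖`: `EuclideanSpace.norm_eq`/`PiLp.norm_apply_le`): at most `3^(n+1)` of them (injection into `Fintype.piFinset` of `Finset.Icc ⌈q_i - 1⌉ ⌊q_i + 1⌋`).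
 `ifl_count V M` bounds all finite partial sums (`p = 0`): `summable_of_sum_le`, `(1 + iflKn κ)^(-M) ≤ (1 + ‖x κ‖)^(-M)`.   Tail: `ifl_count_tail` with `r = ϱ/2`... (`ϱ ≤ iflKn κ ≤ 2‖x κ‖`); `tsum_le_of_sum_le` on the subtype / indicator.
-/

set_option autoImplicit false

namespace Claimed.Agent.R257

open MeasureTheory Metric Set
open scoped ENNReal ContDiff InnerProductSpace Real

variable {n : ℕ}

/-- the lattice point of a layer index -/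
noncomputable def iflSummPt (κ : (Fin n → ℤ) × ℤ) : ST n := (iflLat κ.1, (κ.2 : ℝ))

theorem ifl_summ_norm_le (κ : (Fin n → ℤ) × ℤ) : ‖iflSummPt κ‖ ≤ iflKn κ := by
  unfold iflSummPt iflKn
  rw [Prod.norm_def]
  refine max_le ?_ ?_
  · simp only []
    linarith [abs_nonneg ((κ.2 : ℝ))]
  · simp only [Real.norm_eq_abs]
    linarith [norm_nonneg (iflLat κ.1)]

theorem ifl_summ_le_norm (κ : (Fin n → ℤ) × ℤ) : iflKn κ ≤ 2 * ‖iflSummPt κ‖ := by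
  unfold iflSummPt iflKn
  have h1 : ‖iflLat κ.1‖ ≤ ‖((iflLat κ.1, (κ.2 : ℝ)) : ST n)‖ := norm_fst_le ((iflLat κ.1, (κ.2 : ℝ)) : ST n)
  have h2 : |(κ.2 : ℝ)| ≤ ‖((iflLat κ.1, (κ.2 : ℝ)) : ST n)‖ := norm_snd_le ((iflLat κ.1, (κ.2 : ℝ)) : ST n)
  linarith

theorem ifl_summ_card_Icc (a : ℝ) : (Finset.Icc ⌈a - 1⌉ ⌊a + 1⌋).card ≤ 3 := by
  rw [Int.card_Icc, Int.ceil_sub_one, Int.floor_add_one]
  have := Int.floor_le_ceil a
  omega

theorem ifl_summ_mem_Icc {a : ℝ} {k : ℤ} (h : |(k : ℝ) - a| ≤ 1) : k ∈ Finset.Icc ⌈a - 1⌉ ⌊a + 1⌋ := by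
  rw [Finset.mem_Icc, Int.ceil_le, Int.le_floor]
  obtain ⟨h1, h2⟩ := abs_le.1 h
  constructor <;> linarith

theorem ifl_summ_mult (s : Finset ((Fin n → ℤ) × ℤ)) : IflMult s (iflSummPt (n := n)) (3 ^ (n + 1)) := by
  intro q t _ ht
  have hsub : t ⊆ (Fintype.piFinset fun i => Finset.Icc ⌈q.1 i - 1⌉ ⌊q.1 i + 1⌋) ×ˢ Finset.Icc ⌈q.2 - 1⌉ ⌊q.2 + 1⌋ := by
    intro κ hκ
    have h1 := ht κ hκ
    rw [mem_closedBall, dist_eq_norm] at h1
    have h2 : ‖iflLat κ.1 - q.1‖ ≤ 1 := (norm_fst_le (iflSummPt κ - q)).trans h1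
    have h3 : |(κ.2 : ℝ) - q.2| ≤ 1 := (norm_snd_le (iflSummPt κ - q)).trans h1
    rw [Finset.mem_product, Fintype.mem_piFinset]
    refine ⟨fun i => ifl_summ_mem_Icc ?_, ifl_summ_mem_Icc h3⟩
    have h4 := PiLp.norm_apply_le (iflLat κ.1 - q.1) i
    rw [Real.norm_eq_abs] at h4
    exact h4.trans h2
  refine (Finset.card_le_card hsub).trans ?_
  rw [Finset.card_product, Fintype.card_piFinset, pow_succ]
  refine Nat.mul_le_mul ?_ (ifl_summ_card_Icc _)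
  refine (Finset.prod_le_pow_card _ _ 3 fun i _ => ifl_summ_card_Icc _).trans ?_
  simp

theorem ifl_summ_finrank : Module.finrank ℝ (ST n) = n + 1 := by
  rw [Module.finrank_prod, finrank_euclideanSpace_fin, Module.finrank_self]

theorem ifl_summ_zpow_le {a b : ℝ} (ha : 0 ≤ a) (hab : a ≤ b) (M : ℕ) : (1 + b) ^ (-(M : ℤ)) ≤ (1 + a) ^ (-(M : ℤ)) := by
  rw [zpow_neg, zpow_neg, zpow_natCast, zpow_natCast]
  exact inv_anti₀ (by positivity) (pow_le_pow_left₀ (by positivity) (by linarith) M)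

/-- **L-IFL-SUMM** -/
theorem ifl_summable (n M : ℕ) (hM : n + 1 < M) : Summable fun κ : (Fin n → ℤ) × ℤ => (1 + iflKn κ) ^ (-(M : ℤ)) := by
  obtain ⟨C, hC, h⟩ := ifl_count (ST n) M (by rw [ifl_summ_finrank]; exact hM)
  have hK0 : ∀ κ : (Fin n → ℤ) × ℤ, 0 ≤ iflKn κ := fun κ => (norm_nonneg _).trans (ifl_summ_norm_le κ)
  refine summable_of_sum_le (c := C * (3 ^ (n + 1) : ℕ)) (fun κ => ?_) fun u => ?_
  · have := hK0 κ
    simp only [Pi.zero_apply]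
    positivity
  · refine le_trans (Finset.sum_le_sum fun κ _ => ?_) (h _ u iflSummPt (3 ^ (n + 1)) 0 (ifl_summ_mult u))
    rw [sub_zero]
    exact ifl_summ_zpow_le (norm_nonneg _) (ifl_summ_norm_le κ) M

/-- **L-IFL-SUMM**, tail form -/
theorem ifl_summable_tail (n M K : ℕ) (hM : n + 1 < M) :
    ∃ C : ℝ, 0 ≤ C ∧ ∀ ϱ : ℝ, 0 ≤ ϱ →
      ∑' κ : (Fin n → ℤ) × ℤ, (if ϱ ≤ iflKn κ then (1 + iflKn κ) ^ (-((M + K : ℕ) : ℤ)) else 0) ≤ C * (1 + ϱ) ^ (-(K : ℤ)) := by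
  classical
  obtain ⟨C, hC, h⟩ := ifl_count_tail (ST n) M K (by rw [ifl_summ_finrank]; exact hM)
  have hK0 : ∀ κ : (Fin n → ℤ) × ℤ, 0 ≤ iflKn κ := fun κ => (norm_nonneg _).trans (ifl_summ_norm_le κ)
  refine ⟨C * (3 ^ (n + 1) : ℕ) * 2 ^ K, by positivity, fun ϱ hϱ => ?_⟩
  refine Real.tsum_le_of_sum_le (fun κ => ?_) fun u => ?_
  · have := hK0 κ
    simp only [Pi.zero_apply]
    split_ifs
    · positivity
    · exact le_rfl
  · rw [← Finset.sum_filter]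
    have h1 := h _ (u.filter fun κ => ϱ ≤ iflKn κ) iflSummPt (3 ^ (n + 1)) 0 (ϱ / 2) (by positivity) (ifl_summ_mult _)
      (by
        intro κ hκ
        rw [sub_zero]
        have h2 := (Finset.mem_filter.1 hκ).2
        have h3 := ifl_summ_le_norm κ
        linarith)
    have h2 : ∑ κ ∈ u.filter (fun κ => ϱ ≤ iflKn κ), (1 + iflKn κ) ^ (-((M + K : ℕ) : ℤ))
        ≤ ∑ κ ∈ u.filter (fun κ => ϱ ≤ iflKn κ), (1 + ‖iflSummPt κ - 0‖) ^ (-((M + K : ℕ) : ℤ)) := by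
      refine Finset.sum_le_sum fun κ _ => ?_
      rw [sub_zero]
      exact ifl_summ_zpow_le (norm_nonneg _) (ifl_summ_norm_le κ) (M + K)
    refine h2.trans (h1.trans ?_)
    have h3 : (1 + ϱ / 2) ^ (-(K : ℤ)) ≤ 2 ^ K * (1 + ϱ) ^ (-(K : ℤ)) := by
      rw [zpow_neg, zpow_neg, zpow_natCast, zpow_natCast, ← div_eq_mul_inv, le_div_iff₀ (by positivity),
        inv_mul_le_iff₀ (by positivity), ← mul_pow]
      exact pow_le_pow_left₀ (by positivity) (by linarith) K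
    calc C * ((3 ^ (n + 1) : ℕ) : ℝ) * (1 + ϱ / 2) ^ (-(K : ℤ))
        ≤ C * ((3 ^ (n + 1) : ℕ) : ℝ) * (2 ^ K * (1 + ϱ) ^ (-(K : ℤ))) :=
          mul_le_mul_of_nonneg_left h3 (by positivity)
      _ = _ := by ring

end Claimed.Agent.R257
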