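import Claimed.Agent.R257.Infra.Lay.Basic
import Claimed.Agent.R257.Infra.Lay.Amp
import Claimed.Agent.R257.Infra.Lay.FS
import Claimed.Agent.R257.Infra.Lay.Inv
import Claimed.Agent.R257.Infra.Lay.Coef
import Claimed.Agent.R257.Infra.Lay.Summ

/-!
# R257 / Infra / Lay / Repr : the layer representation of a compact profile.      (helper245)   GLUE: no `sorry` of its own.

`φ(ζ,σ) = ∑_κ e(2πlσ/P) iflH a_κ k (ζ,σ)` for `|σ| ≤ P/2`.
-/

set_option autoImplicit false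

namespace Claimed.Agent.R257

open MeasureTheory Metric Set
open scoped ENNReal ContDiff InnerProductSpace Real

variable {n : ℕ}

/-- `ifl_amp_bound` with the order `J` chosen before the bound `B` (by homogeneity) -/
theorem ifl_amp_bound' (n A' Nd : ℕ) (R P : ℝ) (hP : 0 < P) :
    ∃ J : ℕ, ∀ B : ℝ, ∃ C : ℝ, 0 ≤ C ∧ ∀ φ : ST n → ℂ, Prof J R B φ → ∀ κ : (Fin n → ℤ) × ℤ,
      IflAmp Nd (Real.sqrt n) (C * (1 + iflKn κ) ^ (-(A' : ℤ))) (iflA P φ κ) := by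
  obtain ⟨J, C, hC, H⟩ := ifl_amp_bound n A' Nd R 1 P hP
  refine ⟨J, fun B => ⟨max B 1 * C, by positivity, fun φ hφ κ => ?_⟩⟩
  have hB' : 0 < max B 1 := lt_of_lt_of_le one_pos (le_max_right _ _)
  have h1 : Prof J R 1 (fun z => (((max B 1)⁻¹ : ℝ) : ℂ) * φ z) := by
    have h := (hφ.mono le_rfl le_rfl (le_max_left B 1)).const_mul (((max B 1)⁻¹ : ℝ) : ℂ)
    rwa [Complex.norm_real, Real.norm_of_nonneg (inv_nonneg.2 hB'.le), inv_mul_cancel₀ hB'.ne'] at h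
  have h2 := (H _ h1 κ).const_mul ((max B 1 : ℝ) : ℂ)
  rw [Complex.norm_real, Real.norm_of_nonneg hB'.le, ← mul_assoc] at h2
  have e : (fun θ => ((max B 1 : ℝ) : ℂ) * iflA P (fun z => (((max B 1)⁻¹ : ℝ) : ℂ) * φ z) κ θ) = iflA P φ κ := by
    funext θ
    rw [ifl_A_const_mul, ← mul_assoc, ← Complex.ofReal_mul, mul_inv_cancel₀ hB'.ne', Complex.ofReal_one, one_mul]
  rwa [e] at h2

/-- the integrand of the layer `κ` in the variable `η = k + θ` -/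
noncomputable def iflF (P : ℝ) (φ : ST n → ℂ) (X : ST n) (κ : (Fin n → ℤ) × ℤ) (η : E n) : ℂ :=
  ((iflWin (η - iflLat κ.1) : ℝ) : ℂ) * (iflB P φ κ.2 η * iflE (2 * π * κ.2 * X.2 / P)) * iflE (⟪X.1, η⟫_ℝ - X.2 * ‖η‖ ^ 2)

theorem ifl_F_eq (P : ℝ) (φ : ST n → ℂ) (X : ST n) (κ : (Fin n → ℤ) × ℤ) (η : E n) :
    iflF P φ X κ η = iflE (2 * π * κ.2 * X.2 / P) *
      (iflA P φ κ (η - iflLat κ.1) * iflE (⟪X.1, iflLat κ.1 + (η - iflLat κ.1)⟫_ℝ - X.2 * ‖iflLat κ.1 + (η - iflLat κ.1)‖ ^ 2)) := by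
  unfold iflF iflA
  rw [add_sub_cancel]
  ring

theorem ifl_F_norm (P : ℝ) (φ : ST n → ℂ) (X : ST n) (κ : (Fin n → ℤ) × ℤ) (η : E n) :
    ‖iflF P φ X κ η‖ = ‖iflA P φ κ (η - iflLat κ.1)‖ := by
  rw [ifl_F_eq, norm_mul, norm_mul, ifl_E_norm, ifl_E_norm, one_mul, mul_one]

theorem ifl_F_integral (P : ℝ) (φ : ST n → ℂ) (X : ST n) (κ : (Fin n → ℤ) × ℤ) :
    ((((2 * π) ^ n)⁻¹ : ℝ) : ℂ) * ∫ η, iflF P φ X κ η
      = iflE (2 * π * κ.2 * X.2 / P) * iflH (iflA P φ κ) (iflLat κ.1) X := by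
  have h1 : ∫ η, iflF P φ X κ η = iflE (2 * π * κ.2 * X.2 / P) *
      ∫ θ, iflA P φ κ θ * iflE (⟪X.1, iflLat κ.1 + θ⟫_ℝ - X.2 * ‖iflLat κ.1 + θ‖ ^ 2) := by
    simp only [ifl_F_eq]
    rw [integral_const_mul]
    congr 1
    exact integral_sub_right_eq_self
      (fun θ => iflA P φ κ θ * iflE (⟪X.1, iflLat κ.1 + θ⟫_ℝ - X.2 * ‖iflLat κ.1 + θ‖ ^ 2)) (iflLat κ.1)
  rw [h1]
  unfold iflH
  ring

/-- the pointwise sum over the layers, for fixed `η` -/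
theorem ifl_F_hasSum {R B P : ℝ} (hRP : 2 * R < P) (hP : 0 < P) {φ : ST n → ℂ} (hφ0 : Prof 0 R B φ) (X : ST n) (hX : |X.2| ≤ P / 2)
    (η : E n) (hsn : Summable fun κ => ‖iflF P φ X κ η‖) :
    HasSum (fun κ => iflF P φ X κ η) (iflFt (fun ζ => φ (ζ, X.2)) η * iflE ⟪X.1, η⟫_ℝ) := by
  have hw := ifl_win_sum η
  -- a lattice point with positive window
  obtain ⟨k₀, hk₀⟩ : ∃ k₀ : Fin n → ℤ, iflWin (η - iflLat k₀) ≠ 0 := by
    by_contra hcon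
    push Not at hcon
    have : HasSum (fun k : Fin n → ℤ => iflWin (η - iflLat k)) 0 := by
      simp only [hcon]
      exact hasSum_zero
    exact one_ne_zero (hw.unique this)
  have hBs : Summable fun l : ℤ => ‖iflB P φ l η‖ := by
    have h1 : Summable fun l : ℤ => ‖iflF P φ X (k₀, l) η‖ := hsn.prod_factor k₀
    have h2 := h1.mul_left |iflWin (η - iflLat k₀)|⁻¹
    refine h2.congr fun l => ?_
    unfold iflF
    rw [norm_mul, norm_mul, norm_mul, ifl_E_norm, ifl_E_norm, mul_one, mul_one, Complex.norm_real, Real.norm_eq_abs,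
      ← mul_assoc, inv_mul_cancel₀ (abs_ne_zero.2 hk₀), one_mul]
  have hBs' : Summable fun l : ℤ => ‖((P⁻¹ : ℝ) : ℂ) * ∫ σ, iflE (-(2 * π * l * σ / P)) * iflPsi φ η σ‖ :=
    hBs.congr fun l => by rw [ifl_coef hφ0 P l η]
  have hfs0 := ifl_fs hP (ifl_psi_continuous hφ0 η)
    (fun σ hσ => lt_of_le_of_lt (ifl_psi_supp hφ0 η σ hσ) (by linarith)) hBs' X.2 hX
  have hfs : HasSum (fun l : ℤ => iflB P φ l η * iflE (2 * π * l * X.2 / P)) (iflPsi φ η X.2) := by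
    refine hfs0.congr_fun ?_ 
    intro l
    rw [ifl_coef hφ0 P l η]
  have hwc : HasSum (fun k : Fin n → ℤ => ((iflWin (η - iflLat k) : ℝ) : ℂ)) 1 := by
    have := Complex.hasSum_ofReal.2 hw
    simpa using this
  have hprod : HasSum (fun κ : (Fin n → ℤ) × ℤ => ((iflWin (η - iflLat κ.1) : ℝ) : ℂ) *
      (iflB P φ κ.2 η * iflE (2 * π * κ.2 * X.2 / P))) (1 * iflPsi φ η X.2) := by
    have hs2 : Summable (fun κ : (Fin n → ℤ) × ℤ => ((iflWin (η - iflLat κ.1) : ℝ) : ℂ) *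
        (iflB P φ κ.2 η * iflE (2 * π * κ.2 * X.2 / P))) := by
      refine Summable.of_norm ?_
      refine hsn.congr fun κ => ?_
      unfold iflF
      rw [norm_mul _ (iflE (⟪X.1, η⟫_ℝ - X.2 * ‖η‖ ^ 2)), ifl_E_norm, mul_one]
    exact HasSum.mul (f := fun k : Fin n → ℤ => ((iflWin (η - iflLat k) : ℝ) : ℂ))
      (g := fun l : ℤ => iflB P φ l η * iflE (2 * π * l * X.2 / P)) hwc hfs hs2
  have h3 := hprod.mul_right (iflE (⟪X.1, η⟫_ℝ - X.2 * ‖η‖ ^ 2))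
  have e : 1 * iflPsi φ η X.2 * iflE (⟪X.1, η⟫_ℝ - X.2 * ‖η‖ ^ 2)
      = iflFt (fun ζ => φ (ζ, X.2)) η * iflE ⟪X.1, η⟫_ℝ := by
    unfold iflPsi
    rw [one_mul, mul_assoc, ← ifl_E_add]
    congr 2
    ring
  rw [e] at h3
  exact h3

theorem ifl_F_integrable {P r b : ℝ} {φ : ST n → ℂ} (X : ST n) (κ : (Fin n → ℤ) × ℤ) (ha : IflAmp 0 r b (iflA P φ κ)) :
    Integrable (iflF P φ X κ) := by
  have h1 : Integrable (fun η => iflA P φ κ (η - iflLat κ.1)) := ha.integrable.comp_sub_right _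
  have hcont : Continuous (iflF P φ X κ) := by
    have e : iflF P φ X κ = fun η => iflE (2 * π * κ.2 * X.2 / P) *
        (iflA P φ κ (η - iflLat κ.1) * iflE (⟪X.1, η⟫_ℝ - X.2 * ‖η‖ ^ 2)) := by
      funext η
      rw [ifl_F_eq, add_sub_cancel]
    rw [e]
    have hc1 : Continuous (iflA P φ κ) := ha.smooth.continuous
    have hc2 := ifl_E_continuous
    fun_prop
  refine h1.mono hcont.aestronglyMeasurable (Filter.Eventually.of_forall fun η => ?_)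
  rw [ifl_F_norm]

theorem ifl_F_integral_norm (P : ℝ) (φ : ST n → ℂ) (X : ST n) (κ : (Fin n → ℤ) × ℤ) :
    ∫ η, ‖iflF P φ X κ η‖ = ∫ θ, ‖iflA P φ κ θ‖ := by
  simp only [ifl_F_norm]
  exact integral_sub_right_eq_self (fun θ => ‖iflA P φ κ θ‖) (iflLat κ.1)

/-- **the layer representation** -/
theorem ifl_repr (n : ℕ) (R P : ℝ) (hRP : 2 * R < P) (hP : 0 < P) :
    ∃ J : ℕ, ∀ (B : ℝ) (φ : ST n → ℂ), Prof J R B φ → ∀ X : ST n, |X.2| ≤ P / 2 →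
      HasSum (fun κ : (Fin n → ℤ) × ℤ => iflE (2 * π * κ.2 * X.2 / P) * iflH (iflA P φ κ) (iflLat κ.1) X) (φ X) := by
  obtain ⟨J, HJ⟩ := ifl_amp_bound' n (n + 2) 0 R P hP
  refine ⟨J, fun B φ hφ X hX => ?_⟩
  obtain ⟨C, hC, HA⟩ := HJ B
  have hφ0 : Prof 0 R B φ := hφ.mono (Nat.zero_le _) le_rfl le_rfl
  have hS := ifl_summable n (n + 2) (by omega)
  have hint : ∀ κ, Integrable (iflF P φ X κ) := fun κ => ifl_F_integrable X κ (HA φ hφ κ)
  have hpt : ∀ κ η, ‖iflF P φ X κ η‖ ≤ C * (1 + iflKn κ) ^ (-((n + 2 : ℕ) : ℤ)) := fun κ η => by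
    rw [ifl_F_norm]
    exact (HA φ hφ κ).norm_le _
  have hsumI : Summable fun κ => ∫ η, ‖iflF P φ X κ η‖ := by
    refine Summable.of_nonneg_of_le (fun κ => integral_nonneg fun η => norm_nonneg _) (fun κ => ?_)
      ((hS.mul_left C).mul_right (volume (closedBall (0 : E n) (Real.sqrt n))).toReal)
    rw [ifl_F_integral_norm]
    exact (HA φ hφ κ).integral_norm_le
  have hmain := hasSum_integral_of_summable_integral_norm hint hsumI
  have hptsum : ∀ η, HasSum (fun κ => iflF P φ X κ η) (iflFt (fun ζ => φ (ζ, X.2)) η * iflE ⟪X.1, η⟫_ℝ) := fun η =>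
    ifl_F_hasSum hRP hP hφ0 X hX η
      (Summable.of_nonneg_of_le (fun κ => norm_nonneg _) (fun κ => hpt κ η) (hS.mul_left C))
  have e1 : ∫ η, ∑' κ, iflF P φ X κ η = ∫ η, iflFt (fun ζ => φ (ζ, X.2)) η * iflE ⟪X.1, η⟫_ℝ :=
    integral_congr_ae (Filter.Eventually.of_forall fun η => (hptsum η).tsum_eq)
  rw [e1] at hmain
  have h4 := hmain.mul_left ((((2 * π) ^ n)⁻¹ : ℝ) : ℂ)
  have hinv := (ifl_inv (hφ.slice X.2).1 (hφ.slice X.2).2).2.2 X.1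
  have e2 : φ X = φ (X.1, X.2) := rfl
  rw [e2, hinv]
  refine h4.congr_fun fun κ => ?_
  exact (ifl_F_integral P φ X κ).symm

end Claimed.Agent.R257
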