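import Claimed.Agent.R257.Infra.Lay.Repr
import Claimed.Agent.R257.Infra.Lay.Bessel
import Claimed.Agent.R257.Infra.Lay.Ext
import Claimed.Agent.R257.Infra.Lay.PktDecay
import Claimed.Agent.R257.Sp.Defs

/-!
# R257 / Infra / Lay / Main : EXIT `ifl_lay : LayStmt n` (H fractal.tex, Lemma d:layers).      (helper245)   GLUE: no `sorry` of its own.

`P = 2 (max R 0 + |T₀| + 1)`, amplitudes `a'_κ = (1 + |κ|)^A a_κ` with `‖D^j a_κ‖ ≤ C (1 + |κ|)^(-2A)`, `j ≤ max A (2n+1)`;   `g κ α = iflG L ω_α y_α k a'_κ`,   `u κ z = e(2π l (t/L²)/P)`.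
-/

set_option autoImplicit false

namespace Claimed.Agent.R257

open MeasureTheory Metric Set
open scoped ENNReal ContDiff InnerProductSpace Real

variable {n : ℕ}

theorem ifl_Kn_nonneg (κ : (Fin n → ℤ) × ℤ) : 0 ≤ iflKn κ := by
  unfold iflKn
  positivity

/-- the normalised amplitude of a layer -/
noncomputable def iflA' (A : ℕ) (P : ℝ) (φ : ST n → ℂ) (κ : (Fin n → ℤ) × ℤ) (θ : E n) : ℂ :=
  (((1 + iflKn κ) ^ A : ℝ) : ℂ) * iflA P φ κ θ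

theorem ifl_A'_amp {A Nd : ℕ} {P C : ℝ} {φ : ST n → ℂ} {κ : (Fin n → ℤ) × ℤ}
    (h : IflAmp Nd (Real.sqrt n) (C * (1 + iflKn κ) ^ (-((2 * A : ℕ) : ℤ))) (iflA P φ κ)) :
    IflAmp Nd (Real.sqrt n) (C * (1 + iflKn κ) ^ (-(A : ℤ))) (iflA' A P φ κ) := by
  have h1 := h.const_mul (((1 + iflKn κ) ^ A : ℝ) : ℂ)
  have hk := ifl_Kn_nonneg κ
  have hpos : 0 < 1 + iflKn κ := by linarith
  have e : ‖(((1 + iflKn κ) ^ A : ℝ) : ℂ)‖ * (C * (1 + iflKn κ) ^ (-((2 * A : ℕ) : ℤ))) = C * (1 + iflKn κ) ^ (-(A : ℤ)) := by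
    rw [Complex.norm_real, Real.norm_of_nonneg (by positivity), zpow_neg, zpow_neg, zpow_natCast, zpow_natCast, two_mul, pow_add]
    field_simp
  rw [e] at h1
  exact h1

theorem ifl_zpow_le_one (κ : (Fin n → ℤ) × ℤ) (A : ℕ) : (1 + iflKn κ) ^ (-(A : ℤ)) ≤ 1 := by
  have hk := ifl_Kn_nonneg κ
  rw [zpow_neg, zpow_natCast]
  exact inv_le_one_of_one_le₀ (one_le_pow₀ (by linarith))

/-- decay of the exact field of a normalised layer -/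
theorem ifl_lay_decay {A : ℕ} {Cd C L : ℝ} (hL : 1 ≤ L) (hCd : 0 ≤ Cd) (hC : 0 ≤ C)
    (Hd : ∀ (a : E n → ℂ) (b : ℝ) (k : E n) (X : ST n), IflAmp A (Real.sqrt n) b a →
      ‖iflH a k X‖ ≤ Cd * b * (1 + ‖k‖) ^ A * (1 + |X.2|) ^ A * (1 + ‖X.1‖) ^ (-(A : ℤ)))
    (w y : E n) (κ : (Fin n → ℤ) × ℤ) {a : E n → ℂ} (ha : IflAmp A (Real.sqrt n) (C * (1 + iflKn κ) ^ (-(A : ℤ))) a) (z : ST n) :
    ‖ext (iflG L w y (iflLat κ.1) a) z‖ ≤
      Cd * C * L ^ (-(n : ℝ) / 2) * (1 + |z.2| / L ^ 2) ^ A * ((1 + ‖z.1 - y - (2 * z.2) • w‖ / L)⁻¹) ^ A := by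
  have hL0 : 0 < L := by linarith
  rw [ifl_ext hL0]
  have hcar : ‖car w z‖ = 1 := by
    unfold car
    rw [mul_comm, Complex.norm_exp_ofReal_mul_I]
  rw [norm_mul, norm_mul, hcar, mul_one, Complex.norm_real, Real.norm_of_nonneg (by positivity)]
  have h1 := Hd a _ (iflLat κ.1) (chart L w y 0 z) ha
  have e1 : |(chart L w y 0 z).2| = |z.2| / L ^ 2 := by
    unfold chart
    simp only [sub_zero]
    rw [abs_div, abs_of_pos (by positivity : (0:ℝ) < L ^ 2)]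
  have e2 : ‖(chart L w y 0 z).1‖ = ‖z.1 - y - (2 * z.2) • w‖ / L := by
    unfold chart
    simp only
    rw [norm_smul, norm_inv, Real.norm_of_nonneg hL0.le, div_eq_inv_mul]
  rw [e1, e2] at h1
  have hk := ifl_Kn_nonneg κ
  have hkk : 1 + ‖iflLat κ.1‖ ≤ 1 + iflKn κ := by
    unfold iflKn
    have := abs_nonneg ((κ.2 : ℤ) : ℝ)
    linarith
  have h2 : (1 + iflKn κ) ^ (-(A : ℤ)) * (1 + ‖iflLat κ.1‖) ^ A ≤ 1 := by
    rw [zpow_neg, zpow_natCast, inv_mul_le_iff₀ (by positivity), mul_one]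
    exact pow_le_pow_left₀ (by positivity) hkk A
  have e3 : (1 + ‖z.1 - y - (2 * z.2) • w‖ / L) ^ (-(A : ℤ)) = ((1 + ‖z.1 - y - (2 * z.2) • w‖ / L)⁻¹) ^ A := by
    rw [zpow_neg, zpow_natCast, inv_pow]
  rw [e3] at h1
  set S := (1 + |z.2| / L ^ 2) ^ A with hS
  set W := ((1 + ‖z.1 - y - (2 * z.2) • w‖ / L)⁻¹) ^ A with hW
  have hS0 : 0 ≤ S := by positivity
  have hW0 : 0 ≤ W := by positivity
  have hLn : 0 ≤ L ^ (-(n : ℝ) / 2) := by positivity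
  calc L ^ (-(n : ℝ) / 2) * ‖iflH a (iflLat κ.1) (chart L w y 0 z)‖
      ≤ L ^ (-(n : ℝ) / 2) * (Cd * (C * (1 + iflKn κ) ^ (-(A : ℤ))) * (1 + ‖iflLat κ.1‖) ^ A * S * W) :=
        mul_le_mul_of_nonneg_left h1 hLn
    _ = L ^ (-(n : ℝ) / 2) * Cd * C * S * W * ((1 + iflKn κ) ^ (-(A : ℤ)) * (1 + ‖iflLat κ.1‖) ^ A) := by ring
    _ ≤ L ^ (-(n : ℝ) / 2) * Cd * C * S * W * 1 := mul_le_mul_of_nonneg_left h2 (by positivity)
    _ = _ := by ring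

/-- **EXIT: Lemma d:layers** -/
theorem ifl_lay (n : ℕ) : LayStmt n := by
  refine ⟨Real.sqrt n, Real.sqrt_nonneg _, fun R Rw T₀ m₀ A => ?_⟩
  set P : ℝ := 2 * (max R 0 + |T₀| + 1) with hPdef
  have hR0 : 0 ≤ max R 0 := le_max_right _ _
  have hRR : R ≤ max R 0 := le_max_left _ _
  have hT0 : 0 ≤ |T₀| := abs_nonneg _
  have hP : 0 < P := by rw [hPdef]; linarith
  have hRP : 2 * R < P := by rw [hPdef]; linarith
  have hTP : |T₀| ≤ P / 2 := by rw [hPdef]; linarith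
  obtain ⟨J₁, H₁⟩ := ifl_amp_bound' n (2 * A) (max A (2 * n + 1)) R P hP
  obtain ⟨J₂, H₂⟩ := ifl_repr n R P hRP hP
  obtain ⟨Cb, hCb, Hb⟩ := ifl_bessel n (Real.sqrt n) (Real.sqrt_nonneg _)
  obtain ⟨Cd, hCd, Hd⟩ := ifl_pkt_decay n A (Real.sqrt n) (Real.sqrt_nonneg _)
  refine ⟨max J₁ J₂, fun B => ?_⟩
  obtain ⟨C, hC, HA⟩ := H₁ B
  refine ⟨Cb * m₀ * C ^ 2, Cd * C, fun ι Ar s hIn htc => ?_⟩
  have hL : 1 ≤ Ar.L := hIn.one_le
  have hL0 : 0 < Ar.L := by linarith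
  -- the amplitudes
  have hamp : ∀ α ∈ s, ∀ κ, IflAmp (max A (2 * n + 1)) (Real.sqrt n) (C * (1 + iflKn κ) ^ (-(A : ℤ))) (iflA' A P (Ar.pf α) κ) :=
    fun α hα κ => ifl_A'_amp (HA _ ((hIn.prof α hα).mono (le_max_left _ _) le_rfl le_rfl) κ)
  have hmult : IflMult s (fun α => (Ar.L • Ar.om α, Ar.L⁻¹ • Ar.y α)) m₀ := by
    intro q t hts ht
    refine hIn.mult q.1 q.2 0 t hts fun α hα => ?_
    have h := ht α hα
    rw [mem_closedBall, Prod.dist_eq, max_le_iff, dist_eq_norm, dist_eq_norm] at h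
    refine ⟨h.1, ?_, ?_⟩
    · rw [htc α (hts hα), sub_zero, abs_zero]
      exact zero_le_one
    · rw [mul_zero, zero_mul, zero_smul, add_zero]
      exact h.2
  refine ⟨fun κ α => iflG Ar.L (Ar.om α) (Ar.y α) (iflLat κ.1) (iflA' A P (Ar.pf α) κ),
    fun κ z => iflE (2 * π * κ.2 * (z.2 / Ar.L ^ 2 - 0) / P), fun κ z => ifl_E_norm _, fun κ => ?_, fun α hα z hz => ?_⟩
  · have hreg : ∀ α ∈ s, _ := fun α hα => ifl_G_reg hL0 (Ar.om α) (Ar.y α) (iflLat κ.1) ((hamp α hα κ).mono (Nat.zero_le _) le_rfl le_rfl)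
    refine ⟨⟨hL, hIn.freq, fun α hα z => ?_, hmult⟩, fun α hα => (hreg α hα).1.measurable, fun α hα => (hreg α hα).2.2.1,
      fun α hα ξ hξ => (hreg α hα).2.2.2 ξ hξ, fun t hts c => ?_⟩
    · exact ifl_lay_decay hL hCd hC Hd (Ar.om α) (Ar.y α) κ ((hamp α hα κ).mono (le_max_left _ _) le_rfl le_rfl) z
    · exact Hb ι s Ar.L C Ar.om Ar.y (iflLat κ.1) (fun α => iflA' A P (Ar.pf α) κ) m₀ hL0
        (fun α hα => (hamp α hα κ).mono (le_max_right _ _) le_rfl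
          (by simpa using mul_le_mul_of_nonneg_left (ifl_zpow_le_one κ A) hC)) hmult t hts c
  · have hX : |(chart Ar.L (Ar.om α) (Ar.y α) 0 z).2| ≤ P / 2 := by
      refine le_trans ?_ hTP
      unfold chart
      simp only [sub_zero]
      rw [abs_div, abs_of_pos (by positivity : (0:ℝ) < Ar.L ^ 2), div_le_iff₀ (by positivity)]
      exact hz.trans (mul_le_mul_of_nonneg_right (le_abs_self _) (by positivity))
    have h1 := H₂ B (Ar.pf α) ((hIn.prof α hα).mono (le_max_right _ _) le_rfl le_rfl) _ hX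
    have h2 := h1.mul_left (((Ar.L ^ (-(n : ℝ) / 2) : ℝ) : ℂ) * car (Ar.om α) z)
    have e : Ar.atom α z = ((Ar.L ^ (-(n : ℝ) / 2) : ℝ) : ℂ) * car (Ar.om α) z * Ar.pf α (chart Ar.L (Ar.om α) (Ar.y α) 0 z) := by
      unfold Arr.atom
      rw [htc α hα]
    rw [e]
    refine h2.congr_fun fun κ => ?_
    rw [ifl_ext hL0]
    have e2 : iflH (iflA' A P (Ar.pf α) κ) (iflLat κ.1) (chart Ar.L (Ar.om α) (Ar.y α) 0 z)
        = (((1 + iflKn κ) ^ A : ℝ) : ℂ) * iflH (iflA P (Ar.pf α) κ) (iflLat κ.1) (chart Ar.L (Ar.om α) (Ar.y α) 0 z) :=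
      ifl_H_const_mul _ _ _ _
    rw [e2]
    have hk := ifl_Kn_nonneg κ
    have e3 : (((1 + spKn κ) ^ (-(A : ℤ)) : ℝ) : ℂ) * (((1 + iflKn κ) ^ A : ℝ) : ℂ) = 1 := by
      have : spKn κ = iflKn κ := rfl
      rw [this, ← Complex.ofReal_mul, zpow_neg, zpow_natCast, inv_mul_cancel₀ (by positivity), Complex.ofReal_one]
    have e4 : (chart Ar.L (Ar.om α) (Ar.y α) 0 z).2 = z.2 / Ar.L ^ 2 - 0 := rfl
    rw [e4]
    linear_combination (iflE (2 * π * κ.2 * (z.2 / Ar.L ^ 2 - 0) / P) * (((Ar.L ^ (-(n : ℝ) / 2) : ℝ) : ℂ) * car (Ar.om α) z *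
      iflH (iflA P (Ar.pf α) κ) (iflLat κ.1) (chart Ar.L (Ar.om α) (Ar.y α) 0 z))) * e3

end Claimed.Agent.R257
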