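import Claimed.Agent.R257.Infra.Lay.Decay

/-!
# R257 / Infra / Lay / Basic : elementary facts on `iflE`, amplitudes, profiles.      (helper245)   No `sorry`.
-/

set_option autoImplicit false

namespace Claimed.Agent.R257

open MeasureTheory Metric Set
open scoped ENNReal ContDiff InnerProductSpace Real

variable {n : ℕ}

theorem ifl_E_add (a b : ℝ) : iflE (a + b) = iflE a * iflE b := by
  unfold iflE
  rw [← Complex.exp_add]
  congr 1
  push_cast
  ring

theorem ifl_E_zero : iflE 0 = 1 := by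
  unfold iflE
  simp

theorem ifl_E_norm (a : ℝ) : ‖iflE a‖ = 1 := by
  unfold iflE
  rw [mul_comm]
  exact Complex.norm_exp_ofReal_mul_I a

theorem ifl_E_continuous : Continuous iflE := by
  unfold iflE
  fun_prop

theorem ifl_E_ne_zero (a : ℝ) : iflE a ≠ 0 := Complex.exp_ne_zero _

theorem ifl_E_neg_mul (a : ℝ) : iflE (-a) * iflE a = 1 := by
  rw [← ifl_E_add, neg_add_cancel, ifl_E_zero]

theorem IflAmp.mono {N N' : ℕ} {r r' b b' : ℝ} {a : E n → ℂ} (h : IflAmp N r b a) (hN : N' ≤ N) (hr : r ≤ r') (hb : b ≤ b') :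
    IflAmp N' r' b' a :=
  ⟨h.smooth, fun θ hθ => (h.supp θ hθ).trans hr, fun j hj θ => (h.bound j (hj.trans hN) θ).trans hb⟩

theorem IflAmp.hasCompactSupport {N : ℕ} {r b : ℝ} {a : E n → ℂ} (h : IflAmp N r b a) : HasCompactSupport a :=
  HasCompactSupport.intro (isCompact_closedBall 0 r) fun θ hθ => by
    by_contra hne
    exact hθ (by rw [mem_closedBall, dist_zero_right]; exact h.supp θ hne)

theorem IflAmp.integrable {N : ℕ} {r b : ℝ} {a : E n → ℂ} (h : IflAmp N r b a) : Integrable a :=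
  h.smooth.continuous.integrable_of_hasCompactSupport h.hasCompactSupport

/-- the `L¹` norm of an amplitude -/
theorem IflAmp.integral_norm_le {N : ℕ} {r b : ℝ} {a : E n → ℂ} (h : IflAmp N r b a) :
    ∫ θ, ‖a θ‖ ≤ b * (volume (closedBall (0 : E n) r)).toReal := by
  have h1 : ∫ θ, ‖a θ‖ = ∫ θ in closedBall (0 : E n) r, ‖a θ‖ := by
    rw [setIntegral_eq_integral_of_forall_compl_eq_zero]
    intro θ hθ
    by_contra hne
    apply hθ
    rw [mem_closedBall, dist_zero_right]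
    exact h.supp θ (fun h0 => hne (by rw [h0, norm_zero]))
  rw [h1]
  have h2 := norm_setIntegral_le_of_norm_le_const (μ := volume) (s := closedBall (0 : E n) r) (f := fun θ => ‖a θ‖) (C := b)
    (measure_closedBall_lt_top) (fun θ _ => by rw [norm_norm]; exact h.norm_le θ)
  rw [Real.norm_of_nonneg (integral_nonneg fun θ => norm_nonneg _)] at h2
  exact h2

theorem IflAmp.const_mul {N : ℕ} {r b : ℝ} {a : E n → ℂ} (h : IflAmp N r b a) (c : ℂ) :
    IflAmp N r (‖c‖ * b) (fun θ => c * a θ) := by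
  refine ⟨contDiff_const.mul h.smooth, fun θ hθ => h.supp θ (fun h0 => hθ (by rw [h0, mul_zero])), fun j hj θ => ?_⟩
  have e : (fun θ => c * a θ) = c • a := rfl
  rw [e, iteratedFDeriv_const_smul_apply (h.smooth.contDiffAt.of_le (by exact_mod_cast le_top)), norm_smul]
  exact mul_le_mul_of_nonneg_left (h.bound j hj θ) (norm_nonneg _)

theorem Prof.mono {J J' : ℕ} {R R' B B' : ℝ} {φ : ST n → ℂ} (h : Prof J R B φ) (hJ : J' ≤ J) (hR : R ≤ R') (hB : B ≤ B') :
    Prof J' R' B' φ :=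
  ⟨h.smooth, fun z hz => (h.supp z hz).trans hR, fun j hj z => (h.bound j (hj.trans hJ) z).trans hB⟩

theorem Prof.const_mul {J : ℕ} {R B : ℝ} {φ : ST n → ℂ} (h : Prof J R B φ) (c : ℂ) :
    Prof J R (‖c‖ * B) (fun z => c * φ z) := by
  refine ⟨contDiff_const.mul h.smooth, fun θ hθ => h.supp θ (fun h0 => hθ (by rw [h0, mul_zero])), fun j hj θ => ?_⟩
  have e : (fun θ => c * φ θ) = c • φ := rfl
  rw [e, iteratedFDeriv_const_smul_apply (h.smooth.contDiffAt.of_le (by exact_mod_cast le_top)), norm_smul]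
  exact mul_le_mul_of_nonneg_left (h.bound j hj θ) (norm_nonneg _)

/-- the amplitudes are linear in the profile -/
theorem ifl_A_const_mul (P : ℝ) (φ : ST n → ℂ) (κ : (Fin n → ℤ) × ℤ) (c : ℂ) (θ : E n) :
    iflA P (fun z => c * φ z) κ θ = c * iflA P φ κ θ := by
  unfold iflA iflB iflSft
  have e : ∀ w : ST n, ∫ v : ST n, iflE (-(⟪v.1, w.1⟫_ℝ + v.2 * w.2)) * (c * φ v)
      = c * ∫ v : ST n, iflE (-(⟪v.1, w.1⟫_ℝ + v.2 * w.2)) * φ v := by
    intro w
    rw [← integral_const_mul]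
    congr 1
    funext v
    ring
  rw [e]
  ring

/-- the native field is linear in the amplitude -/
theorem ifl_H_const_mul (a : E n → ℂ) (k : E n) (X : ST n) (c : ℂ) :
    iflH (fun θ => c * a θ) k X = c * iflH a k X := by
  unfold iflH
  have e : ∫ θ, c * a θ * iflE (⟪X.1, k + θ⟫_ℝ - X.2 * ‖k + θ‖ ^ 2) = c * ∫ θ, a θ * iflE (⟪X.1, k + θ⟫_ℝ - X.2 * ‖k + θ‖ ^ 2) := by
    rw [← integral_const_mul]
    congr 1
    funext v
    ring
  rw [e]
  ring

/-- slices of a profile -/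
theorem Prof.slice {J : ℕ} {R B : ℝ} {φ : ST n → ℂ} (h : Prof J R B φ) (σ : ℝ) :
    ContDiff ℝ ∞ (fun ζ : E n => φ (ζ, σ)) ∧ HasCompactSupport (fun ζ : E n => φ (ζ, σ)) := by
  refine ⟨h.smooth.comp (contDiff_id.prodMk contDiff_const), HasCompactSupport.intro (isCompact_closedBall 0 R) fun ζ hζ => ?_⟩
  by_contra hne
  apply hζ
  rw [mem_closedBall, dist_zero_right]
  exact (le_max_left _ _).trans (h.supp (ζ, σ) hne)

end Claimed.Agent.R257
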