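import Claimed.Agent.R257.Infra.Lay.Defs
import Claimed.Agent.R255.Pk.NspMain

/-!
# R257 / Infra / Lay / Decay : LEAF L-IFL-DECAY (INFRA U2): decay of the Fourier transform of an amplitude.      (architect helper245)   ~200 l., Mathlib only.

PLAN.  `iflFt f w = 𝓕 f ((2π)⁻¹ • w)` (`Real.fourier_eq` / `Real.fourierIntegral_eq'`: `𝓕 f v = ∫ e^{-2πi⟪x,v⟫} f x`).   Mathlib `Real.pow_mul_norm_iteratedFDeriv_fourier_le`
 (old name `pow_mul_norm_iteratedFDeriv_fourierIntegral_le`) with `k = 0`:  `‖v‖^p ‖𝓕 f v‖ ≤ 2^p ∑_{q ≤ p} ∫ ‖D^q f‖ ≤ 2^p (p+1) b vol(closedBall 0 r)`, for `p = 0` and `p = N`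
 (integrability: continuous with compact support; `D^q f = 0` off `closedBall 0 r` because the complement is open and `f = 0` there).
 `vol (closedBall 0 r) = ω_n r^n ≤ ω_n (1+r)^n`;  `(1+‖w‖)^N ≤ 2^N max(1, ‖w‖^N)`.     [Alternative: `R255.pk_nsp` along `e = w/‖w‖`.]
-/

set_option autoImplicit false

namespace Claimed.Agent.R257

open MeasureTheory Metric Set
open scoped ENNReal ContDiff InnerProductSpace Real

variable {n : ℕ}

/-- the phase of a native field -/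
noncomputable def iflDecPh (ζ k : E n) (σ : ℝ) (θ : E n) : ℝ := ⟪ζ, k + θ⟫_ℝ - σ * ‖k + θ‖ ^ 2

theorem ifl_decay_psi_fd (ζ k : E n) (σ : ℝ) (θ : E n) :
    HasFDerivAt (iflDecPh ζ k σ) (innerSL ℝ ζ - (2 * σ) • innerSL ℝ (k + θ)) θ := by
  have h1 : HasFDerivAt (fun θ : E n => k + θ) (ContinuousLinearMap.id ℝ (E n)) θ := (hasFDerivAt_id θ).const_add k
  have h2 : HasFDerivAt (fun θ : E n => ⟪ζ, k + θ⟫_ℝ) (innerSL ℝ ζ) θ := by
    have := (innerSL ℝ ζ).hasFDerivAt.comp θ h1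
    rw [ContinuousLinearMap.comp_id] at this
    exact this
  have h3 := (h1.norm_sq).const_mul σ
  have h4 := h2.sub h3
  refine h4.congr_fderiv ?_
  ext v
  simp
  ring

theorem ifl_decay_psi_smooth (ζ k : E n) (σ : ℝ) : ContDiff ℝ ∞ (iflDecPh ζ k σ) := by
  unfold iflDecPh
  exact (contDiff_const.inner ℝ (contDiff_const.add contDiff_id)).sub
    (contDiff_const.mul ((contDiff_const.add contDiff_id).norm_sq ℝ))

theorem IflAmp.nonneg {N : ℕ} {r b : ℝ} {a : E n → ℂ} (h : IflAmp N r b a) : 0 ≤ b :=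
  (norm_nonneg _).trans (h.bound 0 (Nat.zero_le _) 0)

theorem IflAmp.tsupp {N : ℕ} {r b : ℝ} {a : E n → ℂ} (h : IflAmp N r b a) : tsupport a ⊆ closedBall 0 r :=
  closure_minimal (fun θ hθ => mem_closedBall_zero_iff.2 (h.supp θ hθ)) isClosed_closedBall

theorem IflAmp.norm_le {N : ℕ} {r b : ℝ} {a : E n → ℂ} (h : IflAmp N r b a) (θ : E n) : ‖a θ‖ ≤ b := by
  have := h.bound 0 (Nat.zero_le _) θ
  rwa [norm_iteratedFDeriv_zero] at this

/-- volume of a ball -/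
theorem ifl_decay_vol (r : ℝ) (hr : 0 ≤ r) :
    (volume (closedBall (0 : E n) r)).toReal = r ^ n * (volume (ball (0 : E n) 1)).toReal := by
  rw [Measure.addHaar_closedBall _ _ hr, ENNReal.toReal_mul, ENNReal.toReal_ofReal (by positivity)]
  simp

/-- the trivial bound of an oscillatory integral -/
theorem ifl_decay_triv {N : ℕ} {r b : ℝ} {a : E n → ℂ} (h : IflAmp N r b a) (hr : 0 ≤ r) (φ : E n → ℝ) :
    ‖∫ θ, a θ * iflE (φ θ)‖ ≤ b * (r ^ n * (volume (ball (0 : E n) 1)).toReal) := by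
  rw [← ifl_decay_vol r hr]
  exact R255.pk_nsp_base volume (isCompact_closedBall 0 r) h.tsupp h.norm_le

/-- **non-stationary phase for native fields** -/
theorem ifl_decay_core (n A : ℕ) : ∃ C : ℝ, 0 ≤ C ∧ ∀ (a : E n → ℂ) (r b : ℝ) (ζ k : E n) (σ : ℝ), 0 ≤ r → IflAmp A r b a →
    0 < ‖ζ‖ → 4 * |σ| * (‖k‖ + r + 1) ≤ ‖ζ‖ →
    ‖∫ θ, a θ * iflE (iflDecPh ζ k σ θ)‖ ≤ C * b * ((‖ζ‖ / 2) ^ A)⁻¹ * (r ^ n * (volume (ball (0 : E n) 1)).toReal) := by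
  obtain ⟨C, hC0, hC⟩ := R255.pk_nsp (E := E n) volume A (fun _ => 1) (fun _ => 4)
  refine ⟨C, hC0, fun a r b ζ k σ hr ha hζ hσ => ?_⟩
  have hb0 := ha.nonneg
  rcases hb0.eq_or_lt with hb | hb
  · have h0 : ∀ θ, a θ = 0 := fun θ => by
      have := ha.norm_le θ
      rw [← hb] at this
      exact norm_le_zero_iff.1 this
    simp [h0, ← hb]
  set m : ℝ := ‖ζ‖ / 2 with hm
  have hm0 : 0 < m := by positivity
  set e : E n := ‖ζ‖⁻¹ • ζ with he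
  have hen : ‖e‖ = 1 := by
    rw [he, norm_smul, norm_inv, norm_norm, inv_mul_cancel₀ hζ.ne']
  have hζe : ⟪ζ, e⟫_ℝ = ‖ζ‖ := by
    rw [he, real_inner_smul_right, real_inner_self_eq_norm_sq]
    field_simp
  have hfd : ∀ θ, fderiv ℝ (iflDecPh ζ k σ) θ e = (‖ζ‖ - 2 * σ * ⟪k, e⟫_ℝ) + ((-(2 * σ)) • innerSL ℝ e) θ := by
    intro θ
    rw [(ifl_decay_psi_fd ζ k σ θ).fderiv]
    simp only [_root_.sub_apply, _root_.smul_apply, innerSL_apply_apply, hζe, smul_eq_mul,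
      inner_add_left, real_inner_comm e θ]
    ring
  have hσ1 : 2 * |σ| * (‖k‖ + r + 1) ≤ m := by rw [hm]; linarith
  have hσ0 : 0 ≤ |σ| := abs_nonneg σ
  have hk0 : 0 ≤ ‖k‖ := norm_nonneg k
  have hσk : 2 * |σ| * ‖k‖ ≤ m := by nlinarith
  have hσr : 2 * |σ| * (r + 1) ≤ m := by nlinarith
  have hσ2 : 2 * |σ| ≤ m := by nlinarith
  have hΩ : IsOpen (ball (0 : E n) (r + 1)) := isOpen_ball
  have hT : ‖(-(2 * σ)) • innerSL ℝ e‖ ≤ 2 * |σ| := by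
    rw [norm_smul, innerSL_apply_norm, hen, mul_one, Real.norm_eq_abs, abs_neg, abs_mul]
    simp
  have hcb : R255.Cb (fun _ => 4 * m) (ball (0 : E n) (r + 1)) (fun θ => fderiv ℝ (iflDecPh ζ k σ) θ e) := by
    have h1 : R255.Cb (fun _ => ‖(‖ζ‖ - 2 * σ * ⟪k, e⟫_ℝ : ℝ)‖) (ball (0 : E n) (r + 1))
        (fun _ : E n => (‖ζ‖ - 2 * σ * ⟪k, e⟫_ℝ : ℝ)) := R255.pk_cb_const _
    have h2 := R255.pk_cb_clm (Ω := ball (0 : E n) (r + 1)) ((-(2 * σ)) • innerSL ℝ e) (ρ := m) (fun θ hθ => by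
      refine (ContinuousLinearMap.le_opNorm _ _).trans ?_
      have hθ' : ‖θ‖ ≤ r + 1 := (mem_ball_zero_iff.1 hθ).le
      calc _ ≤ 2 * |σ| * (r + 1) := mul_le_mul hT hθ' (norm_nonneg _) (by positivity)
        _ ≤ m := hσr)
    have h3 := h1.add hΩ h2
    simp only [hfd]
    refine h3.mono subset_rfl fun j => ?_
    have h4 : ‖(‖ζ‖ - 2 * σ * ⟪k, e⟫_ℝ : ℝ)‖ ≤ 3 * m := by
      rw [Real.norm_eq_abs]
      have h5 : |⟪k, e⟫_ℝ| ≤ ‖k‖ := by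
        have := abs_real_inner_le_norm k e
        rwa [hen, mul_one] at this
      calc |‖ζ‖ - 2 * σ * ⟪k, e⟫_ℝ| ≤ |‖ζ‖| + |2 * σ * ⟪k, e⟫_ℝ| := abs_sub _ _
        _ ≤ ‖ζ‖ + 2 * |σ| * ‖k‖ := by
            rw [abs_norm, abs_mul, abs_mul, abs_two]
            gcongr
        _ ≤ 3 * m := by rw [hm] at hσk ⊢; linarith
    split_ifs
    · linarith
    · linarith [hT.trans hσ2]
  have hpos : ∀ θ ∈ ball (0 : E n) (r + 1), m ≤ fderiv ℝ (iflDecPh ζ k σ) θ e := by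
    intro θ hθ
    rw [(ifl_decay_psi_fd ζ k σ θ).fderiv]
    simp only [_root_.sub_apply, _root_.smul_apply, innerSL_apply_apply, hζe, smul_eq_mul]
    have hθ' : ‖θ‖ ≤ r + 1 := (mem_ball_zero_iff.1 hθ).le
    have h5 : |⟪k + θ, e⟫_ℝ| ≤ ‖k‖ + r + 1 := by
      have := abs_real_inner_le_norm (k + θ) e
      rw [hen, mul_one] at this
      linarith [norm_add_le k θ]
    have h6 : 2 * σ * ⟪k + θ, e⟫_ℝ ≤ m := by
      calc 2 * σ * ⟪k + θ, e⟫_ℝ ≤ |2 * σ * ⟪k + θ, e⟫_ℝ| := le_abs_self _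
        _ = 2 * |σ| * |⟪k + θ, e⟫_ℝ| := by rw [abs_mul, abs_mul, abs_two]
        _ ≤ 2 * |σ| * (‖k‖ + r + 1) := by gcongr
        _ ≤ m := hσ1
    rw [hm] at h6 ⊢
    linarith
  have hsm : ContDiff ℝ ∞ (fun θ => ((b⁻¹ : ℝ) : ℂ) * a θ) := contDiff_const.mul ha.smooth
  have hts : tsupport (fun θ => ((b⁻¹ : ℝ) : ℂ) * a θ) ⊆ closedBall 0 r :=
    closure_minimal (fun θ hθ => mem_closedBall_zero_iff.2 (ha.supp θ fun h0 => hθ (by simp [h0]))) isClosed_closedBall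
  have hbd : ∀ j ≤ A, ∀ θ, ‖iteratedFDeriv ℝ j (fun θ => ((b⁻¹ : ℝ) : ℂ) * a θ) θ‖ ≤ 1 := by
    intro j hj θ
    have e1 : (fun θ => ((b⁻¹ : ℝ) : ℂ) * a θ) = (b⁻¹ : ℝ) • a := by
      funext θ
      simp
    rw [e1, iteratedFDeriv_const_smul_apply (ha.smooth.contDiffAt.of_le (by exact_mod_cast le_top)), norm_smul,
      Real.norm_eq_abs, abs_of_pos (inv_pos.2 hb), inv_mul_le_iff₀ hb, mul_one]
    exact ha.bound j hj θ
  have key := hC (ball 0 (r + 1)) (closedBall 0 r) _ (iflDecPh ζ k σ) e m hΩ (isCompact_closedBall 0 r)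
    (closedBall_subset_ball (by linarith)) hen.le hm0 hsm hts hbd (ifl_decay_psi_smooth ζ k σ).contDiffOn hpos hcb
  rw [ifl_decay_vol r hr] at key
  have e2 : ∫ θ, a θ * iflE (iflDecPh ζ k σ θ)
      = (b : ℂ) * ∫ θ, ((b⁻¹ : ℝ) : ℂ) * a θ * Complex.exp (Complex.I * (iflDecPh ζ k σ θ : ℂ)) := by
    rw [← integral_const_mul]
    refine integral_congr_ae (Filter.Eventually.of_forall fun θ => ?_)
    have hb' : (b : ℂ) ≠ 0 := Complex.ofReal_ne_zero.2 hb.ne'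
    simp only [iflE]
    push_cast
    field_simp
  rw [e2, norm_mul, Complex.norm_real, Real.norm_eq_abs, abs_of_pos hb]
  calc b * _ ≤ b * (C * (m ^ A)⁻¹ * (r ^ n * (volume (ball (0 : E n) 1)).toReal)) := mul_le_mul_of_nonneg_left key hb.le
    _ = _ := by ring

/-- **L-IFL-DECAY** -/
theorem ifl_decay (n N : ℕ) :
    ∃ C : ℝ, 0 ≤ C ∧ ∀ (f : E n → ℂ) (r b : ℝ), 0 ≤ r → IflAmp N r b f → ∀ w : E n,
      ‖iflFt f w‖ ≤ C * (1 + r) ^ n * b * (1 + ‖w‖) ^ (-(N : ℤ)) := by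
  obtain ⟨C, hC0, hC⟩ := ifl_decay_core n N
  set vb : ℝ := (volume (ball (0 : E n) 1)).toReal with hvb
  have hvb0 : 0 ≤ vb := ENNReal.toReal_nonneg
  refine ⟨(C + 1) * 4 ^ N * vb, by positivity, fun f r b hr hf w => ?_⟩
  have hb0 := hf.nonneg
  have e1 : iflFt f w = ∫ θ, f θ * iflE (iflDecPh (-w) 0 0 θ) := by
    unfold iflFt iflDecPh
    refine integral_congr_ae (Filter.Eventually.of_forall fun θ => ?_)
    simp only [zero_add, zero_mul, sub_zero, inner_neg_left, real_inner_comm w θ]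
    ring
  have hrn : r ^ n ≤ (1 + r) ^ n := pow_le_pow_left₀ hr (by linarith) n
  have hw0 : 0 ≤ ‖w‖ := norm_nonneg w
  rw [zpow_neg, zpow_natCast]
  have hpw : 0 < (1 + ‖w‖) ^ N := by positivity
  rcases le_or_gt ‖w‖ 1 with hw | hw
  · have h1 := ifl_decay_triv hf hr (iflDecPh (-w) 0 0)
    rw [← e1, ← hvb] at h1
    refine h1.trans ?_
    have h2 : (1 + ‖w‖) ^ N ≤ 4 ^ N := pow_le_pow_left₀ (by positivity) (by linarith) N
    have h3 : 1 ≤ 4 ^ N * ((1 + ‖w‖) ^ N)⁻¹ := by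
      rw [← div_eq_mul_inv, le_div_iff₀ hpw, one_mul]; exact h2
    calc b * (r ^ n * vb) ≤ b * ((1 + r) ^ n * vb) := by gcongr
      _ = (b * ((1 + r) ^ n * vb)) * 1 := (mul_one _).symm
      _ ≤ (b * ((1 + r) ^ n * vb)) * (4 ^ N * ((1 + ‖w‖) ^ N)⁻¹) := by gcongr
      _ ≤ (C + 1) * (b * ((1 + r) ^ n * vb)) * (4 ^ N * ((1 + ‖w‖) ^ N)⁻¹) := by
          have : 0 ≤ (b * ((1 + r) ^ n * vb)) * (4 ^ N * ((1 + ‖w‖) ^ N)⁻¹) := by positivity
          nlinarith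
      _ = _ := by ring
  · have h1 := hC f r b (-w) 0 0 hr hf (by rw [norm_neg]; linarith) (by simp)
    rw [← e1, norm_neg] at h1
    refine h1.trans ?_
    have h2 : ((‖w‖ / 2) ^ N)⁻¹ ≤ 4 ^ N * ((1 + ‖w‖) ^ N)⁻¹ := by
      rw [← div_eq_mul_inv, le_div_iff₀ hpw, inv_mul_le_iff₀ (by positivity), ← mul_pow]
      exact pow_le_pow_left₀ (by positivity) (by linarith) N
    calc C * b * ((‖w‖ / 2) ^ N)⁻¹ * (r ^ n * vb) ≤ C * b * (4 ^ N * ((1 + ‖w‖) ^ N)⁻¹) * ((1 + r) ^ n * vb) := by gcongr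
      _ ≤ (C + 1) * b * (4 ^ N * ((1 + ‖w‖) ^ N)⁻¹) * ((1 + r) ^ n * vb) := by gcongr; linarith
      _ = _ := by ring

end Claimed.Agent.R257
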