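import Claimed.Agent.R257.Infra.Defs
import Claimed.Agent.R255.Pk.Window

/-!
# R257 / Infra / Lay / Defs : EXACT FOURIER LAYERS OF COMPACT PROFILES (H fractal.tex, Lemma d:layers).  DEFINITIONS + PLAN      (architect helper245)

EXIT of the package: `ifl_lay (hn : 1 ≤ n) : LayStmt n` (`Infra/Lay/Main.lean`; `LayStmt` = contract of helper7 in `Sp/Defs.lean`).   Prefix `ifl`.   Form D5 of report 853 (Fourier SERIES in native time).

## MATHEMATICS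
Profile `φ(ζ,σ)`, smooth, supported in `‖(ζ,σ)‖ ≤ R`.  Period `P > 2R`, `P ≥ 2T₀`.   `e(s) = iflE s = e^{is}`.
* `iflFt f η = ∫ e(-ζ·η) f ζ dζ`,  `iflSft φ (η,τ) = ∫∫ e(-(ζ·η + στ)) φ(ζ,σ)`,   `b_l(η) = iflB P φ l η = P⁻¹ iflSft φ (η, 2πl/P - |η|²)`.
* for fixed `η`: `ψ(σ) = iflFt (φ(·,σ)) η · e(σ|η|²)` is continuous, supported in `[-R,R]`, its Fourier coefficients (period `P`) are `b_l(η)` (`ifl_coef`), so `ψ(σ) = ∑_l b_l(η) e(2πlσ/P)` for `|σ| ≤ P/2` (`ifl_fs`).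
* inversion (`ifl_inv`): `φ(ζ,σ) = (2π)^{-n} ∫ iflFt (φ(·,σ)) η e(ζ·η) dη = (2π)^{-n} ∫ ∑_k ρ(η-k) ∑_l b_l(η) e(2πlσ/P) e(ζ·η - σ|η|²) dη`,   `ρ = iflWin`, `∑_k ρ(η-k) = 1`.
* centred native amplitude of the layer `κ = (k,l)`: `a_κ(θ) = iflA P φ κ θ = ρ(θ) b_l(k+θ)`;  native field `iflH a k (ζ,σ) = (2π)^{-n} ∫ a(θ) e(ζ·(k+θ) - σ|k+θ|²) dθ`.     So (`ifl_repr`)
      `φ(ζ,σ) = ∑_κ e(2πlσ/P) iflH a_κ k (ζ,σ)`   for `|σ| ≤ P/2`.
* exact input `iflG L ω y k a ξ = (2π)^{-n} L^{n/2} a(L(ξ-ω)-k) e(-y·(ξ-ω))`;   `ext (iflG L ω y k a) z = L^{-n/2} car ω z · iflH a k (chart L ω y 0 z)`  (`ifl_ext`: substitution + `inf_car_chart`).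
* bounds: `‖D^j a_κ‖ ≤ C (1+|k|+|l|)^{-A'}`, `j ≤ N_d` (`ifl_amp_bound`, from `ifl_sft_bound` + chain rule);
  TOOLKIT for arbitrary amplitudes supported in `‖θ‖ ≤ r` (also used by d:packet-expansion): `ifl_count`, `ifl_decay`, `ifl_gram`, `ifl_bessel`, `ifl_pkt_decay`.

## FILES (ONE FILE = ONE LEAF; prove IN PLACE, helper lemmas above the theorem with the prefix of the leaf; statements are frozen: tell helper245 at once if one looks false or awkward)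
`Count` L-IFL-COUNT | `Decay` L-IFL-DECAY | `Win` L-IFL-WIN | `Ext` L-IFL-EXT | `Gram` L-IFL-GRAM | `Bessel` (glue) | `PktDecay` L-IFL-PKT | `Sft` L-IFL-SFT | `Amp` L-IFL-AMP | `FS` L-IFL-FS | `Inv` L-IFL-INV |
`Coef` L-IFL-COEF | `Summ` L-IFL-SUMM | `Repr` (glue) | `Main` (glue).
-/

set_option autoImplicit false

namespace Claimed.Agent.R257

open MeasureTheory Metric Set
open scoped ENNReal ContDiff InnerProductSpace Real

variable {n : ℕ}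

/-- integer vector as a point of `E n` (`= zvec` of `Sp/Defs.lean`, by `rfl`) -/
noncomputable def iflLat (k : Fin n → ℤ) : E n := WithLp.toLp 2 fun i => (k i : ℝ)

/-- the unimodular factor `e^{is}` -/
noncomputable def iflE (s : ℝ) : ℂ := Complex.exp (Complex.I * (s : ℂ))

/-- the window `ρ(θ) = ∏ χ(θ_i)²`, `χ = pkWin1` -/
noncomputable def iflWin (θ : E n) : ℝ := ∏ i, R255.pkWin1 (θ i) ^ 2

/-- Fourier transform on `E n`, paper normalisation -/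
noncomputable def iflFt (f : E n → ℂ) (η : E n) : ℂ := ∫ ζ, iflE (-⟪ζ, η⟫_ℝ) * f ζ

/-- space-time Fourier transform, paper normalisation -/
noncomputable def iflSft (φ : ST n → ℂ) (w : ST n) : ℂ := ∫ v : ST n, iflE (-(⟪v.1, w.1⟫_ℝ + v.2 * w.2)) * φ v

/-- the layer coefficient `b_l(η) = P⁻¹ φ^^(η, 2πl/P - |η|²)` -/
noncomputable def iflB (P : ℝ) (φ : ST n → ℂ) (l : ℤ) (η : E n) : ℂ :=
  ((P⁻¹ : ℝ) : ℂ) * iflSft φ (η, 2 * π * l / P - ‖η‖ ^ 2)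

/-- the centred native amplitude `a_κ(θ) = ρ(θ) b_l(k + θ)` of the layer `κ = (k,l)` -/
noncomputable def iflA (P : ℝ) (φ : ST n → ℂ) (κ : (Fin n → ℤ) × ℤ) (θ : E n) : ℂ :=
  ((iflWin θ : ℝ) : ℂ) * iflB P φ κ.2 (iflLat κ.1 + θ)

/-- the exact input with native amplitude `a`, native shift `k`, label `(w, y)`, scale `L` -/
noncomputable def iflG (L : ℝ) (w y k : E n) (a : E n → ℂ) (ξ : E n) : ℂ :=
  ((((2 * π) ^ n)⁻¹ * L ^ ((n : ℝ) / 2) : ℝ) : ℂ) * a (L • (ξ - w) - k) * iflE (-⟪y, ξ - w⟫_ℝ)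

/-- the native field `(2π)^{-n} ∫ a(θ) e(ζ·(k+θ) - σ|k+θ|²) dθ` of the amplitude `a` with native shift `k` -/
noncomputable def iflH (a : E n → ℂ) (k : E n) (X : ST n) : ℂ :=
  ((((2 * π) ^ n)⁻¹ : ℝ) : ℂ) * ∫ θ, a θ * iflE (⟪X.1, k + θ⟫_ℝ - X.2 * ‖k + θ‖ ^ 2)

/-- size of a layer index (`= spKn` of `Sp/Defs.lean`, by `rfl`) -/
noncomputable def iflKn (κ : (Fin n → ℤ) × ℤ) : ℝ := ‖iflLat κ.1‖ + |(κ.2 : ℝ)|

/-- amplitude class: smooth, supported in `‖θ‖ ≤ r`, derivatives of order `≤ N` bounded by `b` -/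
structure IflAmp (N : ℕ) (r b : ℝ) (a : E n → ℂ) : Prop where
  smooth : ContDiff ℝ ∞ a
  supp : ∀ θ, a θ ≠ 0 → ‖θ‖ ≤ r
  bound : ∀ j ≤ N, ∀ θ, ‖iteratedFDeriv ℝ j a θ‖ ≤ b

/-- unit scale multiplicity of a finite family of points of a metric space -/
def IflMult {V ι : Type} [PseudoMetricSpace V] (s : Finset ι) (x : ι → V) (m₀ : ℕ) : Prop :=
  ∀ (q : V) (t : Finset ι), t ⊆ s → (∀ α ∈ t, x α ∈ closedBall q 1) → t.card ≤ m₀

end Claimed.Agent.R257
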