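import Claimed.Agent.R257.Infra.Lay.Defs

/-!
# R257 / Infra / Lay / Sft : LEAF L-IFL-SFT: the space-time Fourier transform of a compact profile: smoothness, decay of all derivatives.      (architect helper245)   ~300 l., Mathlib only.

PLAN.  `V = W = ST n = E n × ℝ` (sup norm: NOT an inner product space, so use `VectorFourier` with the bilinear form `Lb v w = ⟪v.1,w.1⟫ + v.2 * w.2`, `‖Lb‖ ≤ 2`):
 `iflSft φ w = VectorFourier.fourierIntegral 𝐞 volume Lb.toLinearMap₁₂ φ ((2π)⁻¹ • w)`  (`𝐞 = Real.fourierChar`, `𝐞 (-x) = e^{-2πix}`).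
 smoothness: `VectorFourier.contDiff_fourierIntegral` (moments `‖v‖^k ‖φ v‖` integrable: continuous, compact support).
 decay: `VectorFourier.pow_mul_norm_iteratedFDeriv_fourierIntegral_le`:  `|Lb v w|^N ‖D^i (𝓕φ) w‖ ≤ ‖v‖^N (2π‖Lb‖)^i (2i+2)^N ∑_{p ≤ i, q ≤ N} ∫ ‖u‖^p ‖D^q φ u‖ du`;
 choose `v = (‖w.1‖⁻¹ • w.1, 0)` or `v = (0, sign w.2)` (whichever component realises the sup norm): `‖v‖ = 1`, `|Lb v w| = ‖w‖`.   `∫ ‖u‖^p ‖D^q φ u‖ ≤ R^p B vol(closedBall 0 R)` (`q ≤ N`).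
 Use it with the powers `0` and `N`;  `(1+‖w‖)^N ≤ 2^N max(1,‖w‖^N)`;  rescaling by `(2π)⁻¹`: `iteratedFDeriv_comp_const_smul`-type lemma / `ContinuousLinearMap.norm_iteratedFDeriv_comp_right`.
 If `R < 0` or `B < 0` the class is trivial (`φ = 0`, resp. empty).
-/

set_option autoImplicit false

namespace Claimed.Agent.R257

open MeasureTheory Metric Set
open scoped ENNReal ContDiff InnerProductSpace Real

variable {n : ℕ}

/-- the inner product of `E n` as a real bilinear map -/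
noncomputable def iflSftI (n : ℕ) : E n →L[ℝ] E n →L[ℝ] ℝ := innerSL ℝ

/-- the bilinear form `⟪v.1,w.1⟫ + v.2 * w.2` on `ST n` -/
noncomputable def iflSftL (n : ℕ) : ST n →L[ℝ] ST n →L[ℝ] ℝ :=
  (iflSftI n).bilinearComp (ContinuousLinearMap.fst ℝ (E n) ℝ) (ContinuousLinearMap.fst ℝ (E n) ℝ) +
    (ContinuousLinearMap.mul ℝ ℝ).bilinearComp (ContinuousLinearMap.snd ℝ (E n) ℝ)
      (ContinuousLinearMap.snd ℝ (E n) ℝ)

theorem ifl_sft_L_apply (v w : ST n) : iflSftL n v w = ⟪v.1, w.1⟫_ℝ + v.2 * w.2 := by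
  simp only [iflSftL, iflSftI, _root_.add_apply, ContinuousLinearMap.bilinearComp_apply,
    ContinuousLinearMap.coe_fst', ContinuousLinearMap.coe_snd', ContinuousLinearMap.mul_apply']
  rfl

theorem ifl_sft_dir (u : ST n) : ∃ v : ST n, ‖v‖ ≤ 1 ∧ |iflSftL n v u| = ‖u‖ := by
  rcases le_total |u.2| ‖u.1‖ with h | h
  · refine ⟨(‖u.1‖⁻¹ • u.1, 0), ?_, ?_⟩
    · rw [Prod.norm_def]
      simp only [norm_zero, norm_smul, norm_inv, norm_norm]
      apply max_le _ zero_le_one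
      exact inv_mul_le_one
    · rw [ifl_sft_L_apply, Prod.norm_def]
      simp only [zero_mul, add_zero, real_inner_smul_left, real_inner_self_eq_norm_sq]
      rw [Real.norm_eq_abs, max_eq_left h]
      rcases eq_or_ne ‖u.1‖ 0 with h0 | h0
      · simp [h0]
      · rw [abs_of_nonneg (by positivity)]
        field_simp
  · refine ⟨(0, SignType.sign u.2), ?_, ?_⟩
    · rw [Prod.norm_def]
      simp only [norm_zero]
      apply max_le zero_le_one
      rw [Real.norm_eq_abs]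
      rcases lt_trichotomy u.2 0 with h0 | h0 | h0
      · simp [sign_neg h0]
      · simp [h0]
      · simp [sign_pos h0]
    · rw [ifl_sft_L_apply, Prod.norm_def]
      simp only [inner_zero_left, zero_add]
      rw [Real.norm_eq_abs, max_eq_right h, sign_mul_self]
      exact abs_abs _

theorem ifl_sft_eq (φ : ST n → ℂ) (w : ST n) :
    iflSft φ w = VectorFourier.fourierIntegral Real.fourierChar volume (iflSftL n).toLinearMap₁₂ φ
      ((2 * π)⁻¹ • w) := by
  unfold iflSft VectorFourier.fourierIntegral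
  congr 1
  ext v
  rw [Circle.smul_def, smul_eq_mul]
  congr 1
  rw [Real.fourierChar_apply]
  unfold iflE
  congr 1
  have : (iflSftL n).toLinearMap₁₂ v ((2 * π)⁻¹ • w) = (2 * π)⁻¹ * (⟪v.1, w.1⟫_ℝ + v.2 * w.2) := by
    show iflSftL n v ((2 * π)⁻¹ • w) = _
    rw [map_smul, ifl_sft_L_apply, smul_eq_mul]
  rw [this]
  push_cast
  have hpi : (π : ℂ) ≠ 0 := by exact_mod_cast Real.pi_ne_zero
  field_simp

theorem ifl_sft_tsupp {N : ℕ} {R B : ℝ} {φ : ST n → ℂ} (h : Prof N R B φ) :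
    tsupport φ ⊆ closedBall 0 R := by
  apply closure_minimal _ isClosed_closedBall
  intro z hz
  rw [mem_closedBall_zero_iff]
  exact h.supp z hz

theorem ifl_sft_cpt {N : ℕ} {R B : ℝ} {φ : ST n → ℂ} (h : Prof N R B φ) :
    HasCompactSupport φ :=
  HasCompactSupport.of_support_subset_isCompact (isCompact_closedBall (0 : ST n) R)
    (subset_closure.trans (ifl_sft_tsupp h))

theorem ifl_sft_integrable {N : ℕ} {R B : ℝ} {φ : ST n → ℂ} (h : Prof N R B φ) (k q : ℕ) :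
    Integrable (fun v : ST n => ‖v‖ ^ k * ‖iteratedFDeriv ℝ q φ v‖) volume := by
  apply Continuous.integrable_of_hasCompactSupport
  · exact (continuous_norm.pow k).mul
      ((h.smooth.continuous_iteratedFDeriv (by exact_mod_cast le_top)).norm)
  · exact (((ifl_sft_cpt h).iteratedFDeriv q).norm).mul_left

theorem ifl_sft_int_le {N : ℕ} {R B : ℝ} {φ : ST n → ℂ} (h : Prof N R B φ) (k q : ℕ) (hq : q ≤ N) :
    ∫ v : ST n, ‖v‖ ^ k * ‖iteratedFDeriv ℝ q φ v‖ ≤
      |R| ^ k * |B| * (volume (closedBall (0 : ST n) R)).toReal := by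
  have hpt : ∀ v : ST n, ‖v‖ ^ k * ‖iteratedFDeriv ℝ q φ v‖ ≤
      (closedBall (0 : ST n) R).indicator (fun _ => |R| ^ k * |B|) v := by
    intro v
    by_cases hv : v ∈ closedBall (0 : ST n) R
    · rw [indicator_of_mem hv]
      rw [mem_closedBall_zero_iff] at hv
      have h1 : ‖v‖ ^ k ≤ |R| ^ k := pow_le_pow_left₀ (norm_nonneg _) (hv.trans (le_abs_self _)) k
      have h2 : ‖iteratedFDeriv ℝ q φ v‖ ≤ |B| := (h.bound q hq v).trans (le_abs_self _)
      exact mul_le_mul h1 h2 (norm_nonneg _) (by positivity)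
    · rw [indicator_of_notMem hv]
      have : iteratedFDeriv ℝ q φ v = 0 := by
        by_contra hne
        exact hv (ifl_sft_tsupp h (support_iteratedFDeriv_subset q hne))
      rw [this]; simp
  have hfin : volume (closedBall (0 : ST n) R) ≠ ⊤ := (measure_closedBall_lt_top).ne
  calc ∫ v : ST n, ‖v‖ ^ k * ‖iteratedFDeriv ℝ q φ v‖
      ≤ ∫ v : ST n, (closedBall (0 : ST n) R).indicator (fun _ => |R| ^ k * |B|) v := by
        apply integral_mono (ifl_sft_integrable h k q) _ hpt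
        exact (integrable_indicator_iff measurableSet_closedBall).2
          (integrableOn_const hfin)
    _ = |R| ^ k * |B| * (volume (closedBall (0 : ST n) R)).toReal := by
        rw [integral_indicator_const _ measurableSet_closedBall, smul_eq_mul, mul_comm]
        rfl

/-- the constant of the `m`-th power bound for the `i`-th derivative -/
noncomputable def iflSftM (n : ℕ) (R B : ℝ) (i m : ℕ) : ℝ :=
  (2 * π * ‖iflSftL n‖) ^ i * (2 * (i : ℝ) + 2) ^ m *
    ∑ p ∈ Finset.range (i + 1) ×ˢ Finset.range (m + 1),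
      |R| ^ p.1 * |B| * (volume (closedBall (0 : ST n) R)).toReal

theorem ifl_sft_M_nonneg (n : ℕ) (R B : ℝ) (i m : ℕ) : 0 ≤ iflSftM n R B i m := by
  unfold iflSftM
  have : 0 ≤ ∑ p ∈ Finset.range (i + 1) ×ˢ Finset.range (m + 1),
      |R| ^ p.1 * |B| * (volume (closedBall (0 : ST n) R)).toReal :=
    Finset.sum_nonneg fun p _ => by positivity
  positivity

theorem ifl_sft_pow_le {N : ℕ} {R B : ℝ} {φ : ST n → ℂ} (h : Prof N R B φ) (i m : ℕ) (hm : m ≤ N)
    (u : ST n) :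
    ‖u‖ ^ m * ‖iteratedFDeriv ℝ i (VectorFourier.fourierIntegral Real.fourierChar volume
      (iflSftL n).toLinearMap₁₂ φ) u‖ ≤ iflSftM n R B i m := by
  obtain ⟨v, hv1, hv2⟩ := ifl_sft_dir u
  have : (volume : Measure (ST n)).IsAddHaarMeasure := by
    rw [Measure.volume_eq_prod]; infer_instance
  have key := VectorFourier.pow_mul_norm_iteratedFDeriv_fourierIntegral_le (iflSftL n) (μ := volume)
    (K := ⊤) (N := ⊤) (f := φ) h.smooth (fun k q _ _ => ifl_sft_integrable h k q) (k := i) (n := m)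
    le_top le_top v u
  rw [hv2] at key
  refine key.trans ?_
  unfold iflSftM
  have hs : ∑ p ∈ Finset.range (i + 1) ×ˢ Finset.range (m + 1),
      ∫ v : ST n, ‖v‖ ^ p.1 * ‖iteratedFDeriv ℝ p.2 φ v‖ ≤
      ∑ p ∈ Finset.range (i + 1) ×ˢ Finset.range (m + 1),
        |R| ^ p.1 * |B| * (volume (closedBall (0 : ST n) R)).toReal := by
    apply Finset.sum_le_sum
    intro p hp
    simp only [Finset.mem_product, Finset.mem_range_succ_iff] at hp
    exact ifl_sft_int_le h p.1 p.2 (hp.2.trans hm)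
  have hv : ‖v‖ ^ m ≤ 1 := pow_le_one₀ (norm_nonneg _) hv1
  have hc : 0 ≤ (2 * π * ‖iflSftL n‖) ^ i * (2 * (i : ℝ) + 2) ^ m := by positivity
  have hs0 : 0 ≤ ∑ p ∈ Finset.range (i + 1) ×ˢ Finset.range (m + 1),
      ∫ v : ST n, ‖v‖ ^ p.1 * ‖iteratedFDeriv ℝ p.2 φ v‖ :=
    Finset.sum_nonneg fun p _ => integral_nonneg fun v => by positivity
  calc ‖v‖ ^ m * (2 * π * ‖iflSftL n‖) ^ i * (2 * (i : ℝ) + 2) ^ m *
        ∑ p ∈ Finset.range (i + 1) ×ˢ Finset.range (m + 1),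
          ∫ v : ST n, ‖v‖ ^ p.1 * ‖iteratedFDeriv ℝ p.2 φ v‖
      = ‖v‖ ^ m * (((2 * π * ‖iflSftL n‖) ^ i * (2 * (i : ℝ) + 2) ^ m) *
        ∑ p ∈ Finset.range (i + 1) ×ˢ Finset.range (m + 1),
          ∫ v : ST n, ‖v‖ ^ p.1 * ‖iteratedFDeriv ℝ p.2 φ v‖) := by ring
    _ ≤ 1 * (((2 * π * ‖iflSftL n‖) ^ i * (2 * (i : ℝ) + 2) ^ m) *
        ∑ p ∈ Finset.range (i + 1) ×ˢ Finset.range (m + 1),
          ∫ v : ST n, ‖v‖ ^ p.1 * ‖iteratedFDeriv ℝ p.2 φ v‖) :=
        mul_le_mul_of_nonneg_right hv (mul_nonneg hc hs0)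
    _ ≤ _ := by
        rw [one_mul]
        exact mul_le_mul_of_nonneg_left hs hc

/-- **L-IFL-SFT** -/
theorem ifl_sft_bound (n N : ℕ) (R B : ℝ) :
    ∃ Λ : ℕ → ℝ, (∀ i, 0 ≤ Λ i) ∧ ∀ φ : ST n → ℂ, Prof N R B φ → ContDiff ℝ ∞ (iflSft φ) ∧
      ∀ (i : ℕ) (w : ST n), ‖iteratedFDeriv ℝ i (iflSft φ) w‖ ≤ Λ i * (1 + ‖w‖) ^ (-(N : ℤ)) := by
  refine ⟨fun i => 2 ^ N * (iflSftM n R B i 0 + (2 * π) ^ N * iflSftM n R B i N), fun i => ?_, ?_⟩
  · have h0 := ifl_sft_M_nonneg n R B i 0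
    have h1 := ifl_sft_M_nonneg n R B i N
    positivity
  intro φ h
  set G := VectorFourier.fourierIntegral Real.fourierChar volume (iflSftL n).toLinearMap₁₂ φ with hG
  have hGs : ContDiff ℝ ∞ G :=
    VectorFourier.contDiff_fourierIntegral (N := ⊤) (iflSftL n)
      (fun k _ => by simpa using ifl_sft_integrable h k 0)
  let g : ST n →L[ℝ] ST n := (2 * π)⁻¹ • ContinuousLinearMap.id ℝ (ST n)
  have hgw : ∀ w, g w = (2 * π)⁻¹ • w := fun w => rfl
  have hcomp : iflSft φ = G ∘ g := by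
    ext w
    rw [ifl_sft_eq]
    rfl
  refine ⟨hcomp ▸ hGs.comp g.contDiff, ?_⟩
  intro i w
  rw [hcomp, g.iteratedFDeriv_comp_right hGs w (by exact_mod_cast le_top)]
  have hpi : 0 < 2 * π := by positivity
  have hg1 : ‖g‖ ≤ 1 := by
    apply ContinuousLinearMap.opNorm_le_bound _ zero_le_one
    intro x
    rw [hgw, norm_smul, Real.norm_eq_abs, abs_of_pos (inv_pos.2 hpi)]
    apply mul_le_mul_of_nonneg_right _ (norm_nonneg _)
    apply inv_le_one_of_one_le₀
    linarith [Real.pi_gt_three]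
  have h1 : ‖(iteratedFDeriv ℝ i G (g w)).compContinuousLinearMap fun _ => g‖ ≤
      ‖iteratedFDeriv ℝ i G (g w)‖ := by
    refine (ContinuousMultilinearMap.norm_compContinuousLinearMap_le _ _).trans ?_
    rw [Finset.prod_const]
    exact mul_le_of_le_one_right (norm_nonneg _) (pow_le_one₀ (norm_nonneg _) hg1)
  refine h1.trans ?_
  set X := ‖iteratedFDeriv ℝ i G (g w)‖ with hX
  have hX0 : 0 ≤ X := norm_nonneg _
  have hA : X ≤ iflSftM n R B i 0 := by
    have := ifl_sft_pow_le h i 0 (Nat.zero_le _) (g w)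
    simpa using this
  have hB : ‖g w‖ ^ N * X ≤ iflSftM n R B i N := ifl_sft_pow_le h i N le_rfl (g w)
  have hw : ‖w‖ = 2 * π * ‖g w‖ := by
    rw [hgw, norm_smul, Real.norm_eq_abs, abs_of_pos (inv_pos.2 hpi)]
    field_simp
  have hpow : (1 + ‖w‖) ^ N ≤ 2 ^ N * (1 + ‖w‖ ^ N) := by
    rcases le_total ‖w‖ 1 with hle | hle
    · calc (1 + ‖w‖) ^ N ≤ 2 ^ N := pow_le_pow_left₀ (by positivity) (by linarith) N
        _ ≤ 2 ^ N * (1 + ‖w‖ ^ N) := by
          apply le_mul_of_one_le_right (by positivity)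
          have : 0 ≤ ‖w‖ ^ N := by positivity
          linarith
    · calc (1 + ‖w‖) ^ N ≤ (2 * ‖w‖) ^ N := pow_le_pow_left₀ (by positivity) (by linarith) N
        _ = 2 ^ N * ‖w‖ ^ N := mul_pow _ _ _
        _ ≤ 2 ^ N * (1 + ‖w‖ ^ N) := by
          apply mul_le_mul_of_nonneg_left _ (by positivity)
          linarith
  have hmain : (1 + ‖w‖) ^ N * X ≤
      2 ^ N * (iflSftM n R B i 0 + (2 * π) ^ N * iflSftM n R B i N) := by
    calc (1 + ‖w‖) ^ N * X ≤ 2 ^ N * (1 + ‖w‖ ^ N) * X := mul_le_mul_of_nonneg_right hpow hX0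
      _ = 2 ^ N * (X + (2 * π) ^ N * (‖g w‖ ^ N * X)) := by rw [hw, mul_pow]; ring
      _ ≤ _ := by
        apply mul_le_mul_of_nonneg_left _ (by positivity)
        apply add_le_add hA
        exact mul_le_mul_of_nonneg_left hB (by positivity)
  have hpos : 0 < (1 + ‖w‖) ^ N := by positivity
  rw [zpow_neg, zpow_natCast, ← div_eq_mul_inv, le_div_iff₀ hpos, mul_comm]
  exact hmain

end Claimed.Agent.R257
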